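import Vale.Agent.N166X.Strict

/-! P166, phase transition: the gap between the annealed value and the limit. -/

namespace Vale.Agent.N166X

open MeasureTheory Filter Topology Set Vale.Agent.P166W95 Vale.Agent.P166 Vale.Agent.N166

theorem int_ge {f : ℝ → ℝ} (hf : IntervalIntegrable f volume 0 1) {κ τ : ℝ} (h0 : 0 < τ)
    (h1 : τ ≤ 1) (hn : ∀ s ∈ Ioo (0 : ℝ) 1, 0 ≤ f s) (hk : ∀ s ∈ Ioo 0 τ, κ ≤ f s) :
    κ * τ ≤ ∫ s in (0 : ℝ)..1, f s := by
  have s1 : uIcc 0 τ ⊆ uIcc (0 : ℝ) 1 := uIcc_subset_uIcc_left (by simp [h0.le, h1])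
  have s2 : uIcc τ 1 ⊆ uIcc (0 : ℝ) 1 := uIcc_subset_uIcc_right (by simp [h0.le, h1])
  rw [← intervalIntegral.integral_add_adjacent_intervals (hf.mono_set s1) (hf.mono_set s2)]
  have a1 := intervalIntegral.integral_mono_on_of_le_Ioo h0.le intervalIntegrable_const
    (hf.mono_set s1) hk
  have a2 := intervalIntegral.integral_mono_on_of_le_Ioo (f := fun _ => (0 : ℝ)) h1
    intervalIntegrable_const (hf.mono_set s2) fun s hs => hn s ⟨h0.trans hs.1, hs.2⟩
  simp only [intervalIntegral.integral_const, sub_zero, smul_eq_mul, mul_zero] at a1 a2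
  linarith

theorem inner_cmp {β β' c : ℝ} {R R' : ℝ → ℝ} {k : ℕ} {m q : ℕ → ℝ} (hm : Exponents k m)
    (hq : MonoPath k q) (hq1 : q k < 1) (h : Sp β R k m q ≤ Sp β' R' k m q + c) :
    sSup (innerR β R k m q) ≤ sSup (innerR β' R' k m q) + c := by
  refine (isLUB_innerR β R hm hq hq1).2 ?_
  rintro x ⟨r, hr, rfl⟩
  have h5 := (isLUB_innerR β' R' hm hq hq1).1 ⟨r, hr, rfl⟩
  unfold funcR at h5 ⊢
  unfold Sp at h
  linarith

theorem sum_exp_le {ι : Type*} (S : Finset ι) (hS : S.Nonempty) (t : ι → ℝ) {κ : ℝ} (hκ : 1 ≤ κ) :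
    Real.log (∑ i ∈ S, Real.exp (κ * t i)) ≤ κ * Real.log (∑ i ∈ S, Real.exp (t i)) := by
  have h0 : 0 < ∑ i ∈ S, Real.exp (t i) := Finset.sum_pos (fun _ _ => Real.exp_pos _) hS
  rw [Real.log_le_iff_le_exp (Finset.sum_pos (fun _ _ => Real.exp_pos _) hS)]
  have e : Real.exp (κ * Real.log (∑ i ∈ S, Real.exp (t i))) = ∑ j ∈ S, Real.exp (t j) *
      Real.exp ((κ - 1) * Real.log (∑ i ∈ S, Real.exp (t i))) := by
    rw [← Finset.sum_mul, sub_mul, one_mul, Real.exp_sub, Real.exp_log h0]
    field_simp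
  rw [e]
  refine Finset.sum_le_sum fun j hj => ?_
  have h1 : t j ≤ Real.log (∑ i ∈ S, Real.exp (t i)) := (Real.le_log_iff_exp_le h0).2
    (Finset.single_le_sum (f := fun i => Real.exp (t i)) (fun _ _ => (Real.exp_pos _).le) hj)
  rw [← Real.exp_add, Real.exp_le_exp]
  nlinarith

theorem pressure_ent {N : ℕ} (hN : 0 < N) (J : Matrix (Fin N) (Fin N) ℝ) {β β' : ℝ}
    (hβ' : 0 < β') (h : β' ≤ β) : β' * (P166W95.pressure N β J + Real.log 2) ≤
      β * (P166W95.pressure N β' J + Real.log 2) := by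
  have hS : (Fintype.piFinset fun _ : Fin N => ({-1, 1} : Finset ℝ)).Nonempty :=
    Fintype.piFinset_nonempty.2 fun _ => by simp
  have hN' : (0 : ℝ) < N := by exact_mod_cast hN
  have e : ∀ γ : ℝ, P166W95.pressure N γ J + Real.log 2 = 1 / N * Real.log
      (∑ σ ∈ Fintype.piFinset fun _ : Fin N => ({-1, 1} : Finset ℝ),
        Real.exp (γ / 2 * (σ ⬝ᵥ (J.mulVec σ)))) := fun γ => by
    rw [P166W95.pressure, Real.log_mul (by positivity)
      (Finset.sum_pos (fun _ _ => Real.exp_pos _) hS).ne', Real.log_pow, Real.log_inv]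
    field_simp
    ring
  have h1 := sum_exp_le _ hS (fun σ => β' / 2 * (σ ⬝ᵥ (J.mulVec σ))) ((one_le_div hβ').2 h)
  have e2 : ∀ x : ℝ, β / β' * (β' / 2 * x) = β / 2 * x := fun x => by field_simp
  simp only [e2] at h1
  rw [div_mul_eq_mul_div, le_div_iff₀ hβ'] at h1
  rw [e, e]
  have h2 := mul_le_mul_of_nonneg_left h1 (by positivity : (0 : ℝ) ≤ 1 / N)
  linarith

variable {μ : Measure ℝ} [IsProbabilityMeasure μ] (hμ : IsCompact μ.support)

include hμ

theorem ent_mono {β β' : ℝ} (hβ' : 0 < β') (h : β' ≤ β) :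
    β' * (valueR β (rTransform μ) + Real.log 2) ≤ β * (valueR β' (rTransform μ) + Real.log 2) := by
  obtain ⟨Ω, _, P, _, U, hU⟩ := exists_model
  obtain ⟨Λ, hΛ⟩ := H295.exists_admissible μ hμ
  have hΛ' := (standing_iff Λ ⟨μ, inferInstance⟩ hμ).2 hΛ
  have h1 := ((limit_thm ⟨μ, inferInstance⟩ hμ (hβ'.trans_le h)).2 Λ hΛ' Ω P U hU).1
  have h2 := ((limit_thm ⟨μ, inferInstance⟩ hμ hβ').2 Λ hΛ' Ω P U hU).1
  obtain ⟨ω, h3, h4⟩ := (h1.and h2).exists
  exact le_of_tendsto_of_tendsto ((h3.add_const _).const_mul _) ((h4.add_const _).const_mul _)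
    ((eventually_gt_atTop 0).mono fun N hN => pressure_ent hN _ hβ' h)

theorem R_ii {x y : ℝ} (hx : 0 ≤ x) (hy : x ≤ y) :
    IntervalIntegrable (rTransform μ) volume x y := by
  rw [intervalIntegrable_iff_integrableOn_Ioc_of_le hy]
  have hs : Ioc x y ⊆ Ioi 0 := fun z hz => hx.trans_lt hz.1
  refine Integrable.of_bound (C := max |sInf μ.support| |sSup μ.support|)
    (((continuousOn_r ⟨μ, inferInstance⟩ hμ).mono hs).aestronglyMeasurable measurableSet_Ioc) ?_
  filter_upwards [ae_restrict_mem measurableSet_Ioc] with z hz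
  exact abs_le_max_abs_abs (F.le_Rt hμ (hs hz)) (F.Rt_le hμ (hs hz))

theorem An_diff {β β' : ℝ} (hβ' : 0 < β') (h : β' ≤ β) :
    An β (rTransform μ) - An β' (rTransform μ) = 1 / 2 * ∫ y in β'..β, rTransform μ y := by
  rw [An_eq, An_eq, ← intervalIntegral.integral_add_adjacent_intervals (R_ii hμ le_rfl hβ'.le)
    (R_ii hμ hβ'.le h)]
  ring

theorem An_ge {β β' : ℝ} (hβ' : 0 < β') (h : β' ≤ β) :
    (β - β') * rTransform μ β' / 2 ≤ An β (rTransform μ) - An β' (rTransform μ) ∧
      An β (rTransform μ) - An β' (rTransform μ) ≤ (β - β') * sSup μ.support / 2 := by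
  have h1 := intervalIntegral.integral_mono_on h (f := fun _ => rTransform μ β')
    intervalIntegrable_const (R_ii hμ hβ'.le h) fun y hy => F.Rt_mono hμ hβ' hy.1
  have h2 := intervalIntegral.integral_mono_on h (g := fun _ => sSup μ.support)
    (R_ii hμ hβ'.le h) intervalIntegrable_const fun y hy => F.Rt_le hμ (hβ'.trans_le hy.1)
  simp only [intervalIntegral.integral_const, smul_eq_mul] at h1 h2
  rw [An_diff hμ hβ' h]
  constructor <;> linarith

/-- Negative entropy of the annealed value is impossible. -/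
theorem ent_crit {β : ℝ} (hβ : 0 < β) (h : An β (rTransform μ) ≤ valueR β (rTransform μ)) :
    β * rTransform μ β / 2 ≤ Real.log 2 + An β (rTransform μ) := by
  have hc : ContinuousAt (rTransform μ) β :=
    (continuousOn_r ⟨μ, inferInstance⟩ hμ).continuousAt (Ioi_mem_nhds hβ)
  refine le_of_tendsto (((hc.tendsto.const_mul β).div_const 2).mono_left
    (nhdsWithin_le_nhds (s := Iio β))) (mem_of_superset (Ioo_mem_nhdsLT hβ) fun x hx => ?_)
  have h1 := ent_mono hμ hx.1 hx.2.le
  have h2 := val_le_an (bdd_r hμ hx.1)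
  have h3 := (An_ge hμ hx.1 hx.2.le).1
  have h4 := mul_le_mul_of_nonneg_left h hx.1.le
  have h5 := mul_le_mul_of_nonneg_left h2 hβ.le
  have h6 := mul_le_mul_of_nonneg_left h3 hβ.le
  refine le_of_mul_le_mul_left (a := β - x) ?_ (sub_pos.2 hx.2)
  linarith

theorem ent_large (hab : sInf μ.support < sSup μ.support) :
    ∃ β > 0, Real.log 2 + An β (rTransform μ) < β * rTransform μ β / 2 := by
  obtain ⟨y0, h0, h1⟩ := R_lt hμ hab
  obtain ⟨η, hη⟩ : ∃ η, η = (sSup μ.support - rTransform μ y0) * y0 := ⟨_, rfl⟩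
  have η0 : 0 < η := by rw [hη]; exact mul_pos (sub_pos.2 h1) h0
  have hl : 0 < Real.log 2 := Real.log_pos one_lt_two
  obtain ⟨β, hβ⟩ : ∃ β, β = y0 * Real.exp ((2 * Real.log 2 + 2) / η) := ⟨_, rfl⟩
  have h2 : y0 ≤ β := by
    rw [hβ]
    exact le_mul_of_one_le_right h0.le (Real.one_le_exp (by positivity))
  have β0 : 0 < β := h0.trans_le h2
  refine ⟨β, β0, ?_⟩
  have i1 : IntervalIntegrable (fun y : ℝ => 1 / y) volume y0 β :=
    ContinuousOn.intervalIntegrable (continuousOn_const.div continuousOn_id fun y hy => by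
      rw [uIcc_of_le h2] at hy
      exact (h0.trans_le hy.1).ne')
  have h3 := intervalIntegral.integral_mono_on h2 (g := fun y => sSup μ.support - η * (1 / y))
    (R_ii hμ h0.le h2) (intervalIntegrable_const.sub (i1.const_mul _)) fun y hy => by
      have y0' := h0.trans_le hy.1
      have h4 := R_gap hμ h0 hy.1
      rw [← hη, ← div_le_iff₀ y0'] at h4
      have : η * (1 / y) = η / y := by ring
      linarith
  rw [intervalIntegral.integral_sub intervalIntegrable_const (i1.const_mul _),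
    intervalIntegral.integral_const_mul, integral_one_div_of_pos h0 β0] at h3
  have h4 : Real.log (β / y0) = (2 * Real.log 2 + 2) / η := by
    rw [hβ, mul_div_cancel_left₀ _ h0.ne', Real.log_exp]
  have h5 := intervalIntegral.integral_mono_on_of_le_Ioo h0.le (g := fun _ => sSup μ.support)
    (R_ii hμ le_rfl h0.le) intervalIntegrable_const fun y hy => F.Rt_le hμ hy.1
  have h6 := An_diff hμ h0 h2
  rw [An_eq y0] at h6
  rw [h4, mul_div_cancel₀ _ η0.ne'] at h3
  simp only [intervalIntegral.integral_const, smul_eq_mul, sub_zero] at h3 h5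
  have h7 : sSup μ.support ≤ stieltjesInv μ β := F.le_stInv hμ β0
  have h8 : β * rTransform μ β = β * stieltjesInv μ β - 1 := by
    unfold rTransform
    field_simp
  nlinarith

variable {k : ℕ} {m q : ℕ → ℝ}

theorem Sp_mono {β β' κ τ : ℝ} (hβ' : 0 < β') (h : β' ≤ β) (hm : Exponents k m)
    (hq : MonoPath k q) (hq0 : q 0 = 0) (hq1 : q k < 1) (h0 : 0 < τ) (h1 : τ ≤ 1)
    (hk : ∀ s ∈ Ioo 0 τ, κ ≤
      β * (rTransform μ (β * (1 - s)) - rTransform μ (β * level k m q s)) -
        β' * (rTransform μ (β' * (1 - s)) - rTransform μ (β' * level k m q s))) :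
    Sp β (rTransform μ) k m q ≤ Sp β' (rTransform μ) k m q +
      (An β (rTransform μ) - An β' (rTransform μ) - κ * τ / 2) := by
  have hβ := hβ'.trans_le h
  have i1 := II_r hμ hβ k m q hm hq hq0 hq1
  have i2 := II_r hμ hβ' k m q hm hq hq0 hq1
  have i3 := II_an (II_r hμ hβ)
  have i4 := II_an (II_r hμ hβ')
  have h2 := int_ge (((i3.sub i1).const_mul β).sub ((i4.sub i2).const_mul β')) h0 h1
    (fun s hs => sub_nonneg.2
      (mono_beta hμ (level_pos hβ hm hq hq0 hq1 hs) (level_le hm s) hβ' h)) hk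
  rw [intervalIntegral.integral_sub ((i3.sub i1).const_mul β) ((i4.sub i2).const_mul β'),
    intervalIntegral.integral_const_mul, intervalIntegral.integral_const_mul,
    intervalIntegral.integral_sub i3 i1, intervalIntegral.integral_sub i4 i2] at h2
  unfold Sp An
  linarith

theorem gap_mono {β β' : ℝ} (hβ' : 0 < β') (h : β' ≤ β) :
    An β' (rTransform μ) - valueR β' (rTransform μ) ≤
      An β (rTransform μ) - valueR β (rTransform μ) := by
  have hβ := hβ'.trans_le h
  have := val_cmp (bdd_r hμ hβ) fun k m q hm hq hq0 hq1 =>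
    Sp_mono hμ (κ := 0) hβ' h hm hq hq0 hq1 one_pos le_rfl fun s hs => sub_nonneg.2
      (mono_beta hμ (level_pos hβ hm hq hq0 hq1 hs) (level_le hm s) hβ' h)
  linarith

theorem val_shift {β β' : ℝ} (hβ' : 0 < β') (h : β' ≤ β) :
    valueR β' (rTransform μ) ≤ valueR β (rTransform μ) + -((β - β') * sInf μ.support / 2) := by
  have hβ := hβ'.trans_le h
  refine val_cmp (bdd_r hμ hβ') fun k m q hm hq hq0 hq1 => ?_
  have i1 := II_r hμ hβ k m q hm hq hq0 hq1
  have i2 := II_r hμ hβ' k m q hm hq hq0 hq1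
  have h2 := intervalIntegral.integral_mono_on_of_le_Ioo zero_le_one
    ((i2.const_mul β').add (intervalIntegrable_const (c := (β - β') * sInf μ.support)))
    (i1.const_mul β) fun s hs => by
      have hL := level_pos hβ hm hq hq0 hq1 hs
      have h3 : rTransform μ (β' * level k m q s) ≤ rTransform μ (β * level k m q s) :=
        F.Rt_mono hμ (mul_pos hβ' hL) (mul_le_mul_of_nonneg_right h hL.le)
      have h4 : sInf μ.support ≤ rTransform μ (β * level k m q s) := F.le_Rt hμ (mul_pos hβ hL)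
      nlinarith
  rw [intervalIntegral.integral_add (i2.const_mul β') intervalIntegrable_const] at h2
  simp only [intervalIntegral.integral_const_mul, intervalIntegral.integral_const, smul_eq_mul,
    sub_zero, one_mul] at h2
  unfold Sp
  linarith

theorem gap_closed {β : ℝ} (hβ : 0 < β)
    (h : ∀ x ∈ Ioo 0 β, An x (rTransform μ) ≤ valueR x (rTransform μ)) :
    An β (rTransform μ) ≤ valueR β (rTransform μ) := by
  have ht : Tendsto (fun x => valueR β (rTransform μ) +
      (β - x) * (sSup μ.support - sInf μ.support) / 2) (𝓝[<] β) (𝓝 (valueR β (rTransform μ))) := by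
    have : Continuous fun x => valueR β (rTransform μ) +
      (β - x) * (sSup μ.support - sInf μ.support) / 2 := by fun_prop
    simpa using (this.tendsto β).mono_left (nhdsWithin_le_nhds (s := Iio β))
  refine ge_of_tendsto ht (mem_of_superset (Ioo_mem_nhdsLT hβ) fun x hx => ?_)
  have h1 := val_shift hμ hx.1 hx.2.le
  have h2 := (An_ge hμ hx.1 hx.2.le).2
  have h3 := h x hx
  rw [mem_ofPred_eq]
  linarith

theorem edge_lt {β g : ℝ} (hg0 : 0 < g) (hg : g < β) (h : stieltjesInv μ g = sSup μ.support) :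
    valueR β (rTransform μ) < An β (rTransform μ) := by
  have hβ := hg0.trans hg
  refine val_lt_an (b := sSup μ.support) hβ (II_r hμ hβ) (bdd_r hμ hβ) hg0 hg fun y hy => ?_
  have h1 : stieltjesInv μ y ≤ stieltjesInv μ g := F.stInv_anti hμ hg0 hy
  have h2 : sSup μ.support ≤ stieltjesInv μ y := F.le_stInv hμ (hg0.trans_le hy)
  rw [rTransform, le_antisymm (h1.trans h.le) h2]

/-- In the interior of the paramagnetic phase the trivial path is an isolated minimiser. -/
theorem isolated {β β1 η : ℝ} (hβ : 0 < β) (h1 : β < β1) (hη : 0 < η) (hη1 : η < 1)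
    (h : An β1 (rTransform μ) ≤ valueR β1 (rTransform μ)) :
    ∃ γ > 0, ∀ k m q, Exponents k m → MonoPath k q → q 0 = 0 → q k < 1 →
      η ≤ ∑ l ∈ Finset.range (k + 1), (m (l + 1) - m l) * q l →
      An β (rTransform μ) + γ ≤ sSup (innerR β (rTransform μ) k m q) := by
  have hβ1 := hβ.trans h1
  rcases (F.rt2_inf_le_sup hμ).eq_or_lt with hab | hab
  · refine ⟨η ^ 2 / 4, by positivity, fun k m q hm hq hq0 hq1 hs => ?_⟩
    have h2 := Sp_ge (c := 0) hβ (II_r hμ hβ) (fun y y' hy hyy _ => by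
      have a1 : sInf μ.support ≤ rTransform μ y := F.le_Rt hμ hy
      have a2 : rTransform μ y' ≤ sSup μ.support := F.Rt_le hμ (hy.trans_le hyy)
      linarith) hm hq hq0 hq1
    have h3 := inner_ge β (rTransform μ) hm hq hq1
    have h4 : ∑ l ∈ Finset.range (k + 1), (2 * η * ((m (l + 1) - m l) * q l)) ≤
        ∑ l ∈ Finset.range (k + 1), ((m (l + 1) - m l) * q l ^ 2 + η ^ 2 * (m (l + 1) - m l)) :=
      Finset.sum_le_sum fun l hl => by
        nlinarith [mul_nonneg (dm_nonneg hm hl) (sq_nonneg (q l - η))]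
    rw [Finset.sum_add_distrib, ← Finset.mul_sum, ← Finset.mul_sum, dm_sum hm] at h4
    unfold Qs at h2 h3
    nlinarith
  · have hK : ∀ y, 0 < y → y < β1 → sSup μ.support < stieltjesInv μ y := fun y hy hy1 =>
      lt_of_le_of_ne (F.le_stInv hμ hy) fun he => absurd (edge_lt hμ hy hy1 he.symm) (not_lt.2 h)
    have hκ := mono_beta_lt hμ hab (L := 1 - 3 * η / 4) (u := 1 - η / 4) (by linarith)
      (by linarith) (by linarith) hβ h1 hK
    refine ⟨_, half_pos (mul_pos (sub_pos.2 hκ) (by positivity : 0 < η / 4)),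
      fun k m q hm hq hq0 hq1 hs => ?_⟩
    have h2 := inner_cmp hm hq hq1 (Sp_mono hμ hβ h1.le hm hq hq0 hq1
      (κ := β1 * (rTransform μ (β1 * (1 - η / 4)) - rTransform μ (β1 * (1 - 3 * η / 4))) -
        β * (rTransform μ (β * (1 - η / 4)) - rTransform μ (β * (1 - 3 * η / 4))))
      (by positivity : 0 < η / 4) (by linarith) fun s hs' => by
        have hL := level_pos hβ hm hq hq0 hq1 (s := s) ⟨hs'.1, by linarith [hs'.2]⟩
        have a1 : ∑ l ∈ Finset.range (k + 1), ((m (l + 1) - m l) * q l - s * (m (l + 1) - m l)) ≤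
            ∑ l ∈ Finset.range (k + 1), (m (l + 1) - m l) * max (q l - s) 0 :=
          Finset.sum_le_sum fun l hl => by
            nlinarith [mul_le_mul_of_nonneg_left (le_max_left (q l - s) 0) (dm_nonneg hm hl)]
        rw [Finset.sum_sub_distrib, ← Finset.mul_sum, dm_sum hm] at a1
        have a2 : level k m q s ≤ 1 - 3 * η / 4 := by
          unfold level
          linarith
        have a3 := mono_beta hμ hL a2 hβ h1.le
        have a4 := mono_beta hμ (L := 1 - η / 4) (u := 1 - s) (by linarith) (by linarith [hs'.2])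
          hβ h1.le
        linarith)
    have h3 : valueR β1 (rTransform μ) ≤ sSup (innerR β1 (rTransform μ) k m q) :=
      csInf_le (bdd_r hμ hβ1) ⟨k, m, q, hm, hq, hq0, hq1, rfl⟩
    linarith

/-- An outlier beyond `G⁻¹(β)` raises the limit. -/
theorem spiked_gt {β β1 lam : ℝ} (hβ : 0 < β) (h1 : β < β1)
    (h : An β1 (rTransform μ) ≤ valueR β1 (rTransform μ)) (hl : stieltjesInv μ β < lam) :
    An β (rTransform μ) < valueR β (spiked μ lam) := by
  have hc : ContinuousAt (fun t => stieltjesInv μ (β * (1 - t))) 0 :=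
    ContinuousAt.comp (g := stieltjesInv μ)
      ((F.continuousOn_stInv hμ).continuousAt (Ioi_mem_nhds (by simpa using hβ))) (by fun_prop)
  have h2 : ∀ᶠ t in 𝓝[>] (0 : ℝ), stieltjesInv μ (β * (1 - t)) < (stieltjesInv μ β + lam) / 2 :=
    (hc.eventually_lt continuousAt_const (by simp only [sub_zero, mul_one]; linarith)).filter_mono
      nhdsWithin_le_nhds
  obtain ⟨δ, hδ, δ0, δ1⟩ := (h2.and (Ioo_mem_nhdsGT zero_lt_one)).exists
  obtain ⟨γ, γ0, hγ⟩ := isolated hμ hβ h1 (half_pos δ0) (by linarith) h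
  have hA : An β (rTransform μ) ≤ valueR β (rTransform μ) := by
    linarith [gap_mono hμ hβ h1.le]
  have hle : ∀ y, rTransform μ y ≤ spiked μ lam y := fun y =>
    sub_le_sub_right (le_max_left _ _) _
  obtain ⟨κ, hκ⟩ : ∃ κ, κ = (lam - stieltjesInv μ β) / 2 := ⟨_, rfl⟩
  have κ0 : 0 < κ := by linarith
  refine lt_of_lt_of_le (lt_add_of_pos_right _ (lt_min γ0
    (by positivity : 0 < β / 2 * (κ * (δ / 2))))) (le_csInf (outerR_ne _ _) ?_)
  rintro y ⟨k, m, q, hm, hq, hq0, hq1, rfl⟩
  have i1 := II_spiked hμ hβ lam k m q hm hq hq0 hq1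
  have i2 := II_r hμ hβ k m q hm hq hq0 hq1
  rcases le_total (δ / 2) (∑ l ∈ Finset.range (k + 1), (m (l + 1) - m l) * q l) with hs | hs
  · have h3 := sup_le (δ := 0) hβ (II_r hμ hβ) (II_spiked hμ hβ lam)
      (fun y _ => by rw [add_zero]; exact hle y) hm hq hq0 hq1
    linarith [hγ k m q hm hq hq0 hq1 hs, min_le_left γ (β / 2 * (κ * (δ / 2)))]
  · have h3 := int_ge (i1.sub i2) (κ := κ) (half_pos δ0) (by linarith)
      (fun s _ => sub_nonneg.2 (hle _)) fun s hs' => by
        have a1 : ∑ l ∈ Finset.range (k + 1), (m (l + 1) - m l) * max (q l - s) 0 ≤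
            ∑ l ∈ Finset.range (k + 1), (m (l + 1) - m l) * q l :=
          Finset.sum_le_sum fun l hl => mul_le_mul_of_nonneg_left
            (max_le (by linarith [hs'.1]) (q_mem hq hq1 hl).1) (dm_nonneg hm hl)
        have a2 : 1 - δ ≤ level k m q s := by
          unfold level
          linarith [hs'.2]
        have a3 : stieltjesInv μ (β * level k m q s) ≤ stieltjesInv μ (β * (1 - δ)) :=
          F.stInv_anti hμ (mul_pos hβ (by linarith)) (mul_le_mul_of_nonneg_left a2 hβ.le)
        unfold spiked rTransform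
        linarith [le_max_right (stieltjesInv μ (β * level k m q s)) lam]
    rw [intervalIntegral.integral_sub i1 i2] at h3
    have h4 := inner_cmp (β := β) (β' := β) (R := rTransform μ) (R' := spiked μ lam)
      (c := -(β / 2 * (κ * (δ / 2)))) hm hq hq1 (by
        have := mul_le_mul_of_nonneg_left h3 (half_pos hβ).le
        unfold Sp
        linarith)
    have h5 : valueR β (rTransform μ) ≤ sSup (innerR β (rTransform μ) k m q) :=
      csInf_le (bdd_r hμ hβ) ⟨k, m, q, hm, hq, hq0, hq1, rfl⟩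
    linarith [min_le_right γ (β / 2 * (κ * (δ / 2)))]

end Vale.Agent.N166X
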