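import Vale.Agent.N166X.Defs
import Vale.Agent.N166X.Phase

/-! P166: the definitions of the statement agree with those of the limit theorem. -/

namespace Vale.Agent.N166X

open MeasureTheory ProbabilityTheory Filter Topology Set Vale.Agent.P166W95 Vale.Agent.P166
  Vale.Agent.N166

theorem val_emb (N : ℕ) [MeasurableSpace (Orth N)] [BorelSpace (Orth N)] :
    MeasurableEmbedding fun (V : Orth N) (i j : Fin N) => V.1 i j := by
  have := compact_orth N
  have hc : Continuous fun (V : Orth N) (i j : Fin N) => V.1 i j := continuous_subtype_val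
  exact (hc.isClosedEmbedding fun V W h => Subtype.ext h).measurableEmbedding

theorem Haar.dist {Ω : Type} [MeasurableSpace Ω] {P : Measure Ω} [IsProbabilityMeasure P] {N : ℕ}
    {U : Ω → Fin N → Fin N → ℝ} (h : Haar P U) :
    HaarDistributed P fun ω => (⟨Matrix.of (U ω), h.orth ω⟩ : Orth N) := by
  let _ := borel (Orth N)
  have : BorelSpace (Orth N) := ⟨rfl⟩
  have := compact_orth N
  have := topGroup_orth N
  have he := val_emb N
  have hm : Measurable fun ω => (⟨Matrix.of (U ω), h.orth ω⟩ : Orth N) :=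
    he.measurable_comp_iff.1 h.meas
  have hp := Measure.isProbabilityMeasure_map (μ := P) hm.aemeasurable
  have hi : (P.map fun ω => (⟨Matrix.of (U ω), h.orth ω⟩ : Orth N)).IsMulLeftInvariant := by
    refine ⟨fun V => he.map_injective ?_⟩
    rw [Measure.map_map (measurable_const_mul V) hm,
      Measure.map_map he.measurable ((measurable_const_mul V).comp hm),
      Measure.map_map he.measurable hm]
    exact h.inv V.1 V.2
  exact ⟨_, ⟨hp, Measure.isHaarMeasure_of_isCompact_nonempty_interior _ univ isCompact_univ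
    (by simp) (by simp) (by simp)⟩, ⟨hm.aemeasurable, rfl⟩⟩

theorem exists_haar : ∃ (Ω : Type) (_ : MeasurableSpace Ω) (P : Measure Ω),
    IsProbabilityMeasure P ∧ ∃ U : (N : ℕ) → Ω → Fin N → Fin N → ℝ, ∀ N, Haar P (U N) := by
  let _ : ∀ N, MeasurableSpace (Orth N) := fun N => borel (Orth N)
  have : ∀ N, BorelSpace (Orth N) := fun N => ⟨rfl⟩
  choose ν hν using fun N => (existsUnique_haar N).exists
  have : ∀ N, IsProbabilityMeasure (ν N) := fun N => (hν N).1
  have : ∀ N, (ν N).IsMulLeftInvariant := fun N => (hν N).2.toIsMulLeftInvariant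
  refine ⟨(N : ℕ) → Orth N, inferInstance, Measure.infinitePi ν, inferInstance,
    fun N x i j => (x N).1 i j, fun N => ⟨(val_emb N).measurable.comp (measurable_pi_apply N),
      fun x => (x N).2, fun V hV => ?_⟩⟩
  have := topGroup_orth N
  have h1 := (measurePreserving_eval_infinitePi ν N).map_eq
  have h2 := map_mul_left_eq_self (ν N) ⟨V, hV⟩
  rw [← h1, Measure.map_map (measurable_const_mul _) (measurable_pi_apply N)] at h2
  have h3 := congrArg (Measure.map fun (W : Orth N) (i j : Fin N) => W.1 i j) h2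
  rw [Measure.map_map (val_emb N).measurable
    ((measurable_const_mul _).comp (measurable_pi_apply N)),
    Measure.map_map (val_emb N).measurable (measurable_pi_apply N)] at h3
  exact h3

theorem pres_eq {N : ℕ} (β : ℝ) (Λ : Fin N → ℝ) (U : Fin N → Fin N → ℝ)
    (h : Matrix.of U ∈ Matrix.orthogonalGroup (Fin N) ℝ) :
    pres β Λ U = P166W95.pressure N β (coupling Λ ⟨Matrix.of U, h⟩) := by
  rw [pres, P166W95.pressure, div_eq_inv_mul, one_div, div_eq_inv_mul, inv_pow]
  congr 3
  refine Finset.sum_nbij (fun σ i => ((σ i : ℤ) : ℝ)) (fun σ _ => ?_) (fun σ _ τ _ e => ?_)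
    (fun τ hτ => ?_) fun σ _ => ?_
  · refine Fintype.mem_piFinset.2 fun i => ?_
    rcases Int.units_eq_one_or (σ i) with e | e <;> simp [e]
  · funext i
    exact Units.ext (Int.cast_injective (congrFun e i))
  · refine ⟨fun i => if τ i = 1 then 1 else -1, by simp, funext fun i => ?_⟩
    have := Fintype.mem_piFinset.1 (Finset.mem_coe.1 hτ) i
    simp only [Finset.mem_insert, Finset.mem_singleton] at this
    rcases this with e | e
    · have : τ i ≠ 1 := by rw [e]; norm_num
      simp only [if_neg this]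
      simp [e]
    · simp [e]
  · congr 2
    simp only [dotProduct, Matrix.mulVec, coupling, Matrix.mul_apply, Matrix.diagonal_apply,
      Matrix.transpose_apply, Matrix.of_apply, Finset.mul_sum, Finset.sum_mul, mul_ite, mul_zero,
      Finset.sum_ite_eq', Finset.mem_univ, if_true, mul_assoc]

theorem conv_of {β v : ℝ} {Λ : (N : ℕ) → Fin N → ℝ}
    (h : ∀ (Ω : Type) [MeasurableSpace Ω] (P : Measure Ω) (U : (N : ℕ) → Ω → Orth N),
      (∀ N, HaarDistributed P (U N)) →
      (∀ᵐ ω ∂P, Tendsto (fun N => P166W95.pressure N β (coupling (Λ N) (U N ω))) atTop (𝓝 v)) ∧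
      Tendsto (fun N => eLpNorm (fun ω =>
        P166W95.pressure N β (coupling (Λ N) (U N ω)) - v) 1 P) atTop (𝓝 0)) : Conv β Λ v := by
  intro Ω _ P _ U hU
  have h1 := h Ω P _ fun N => (hU N).dist
  simp only [eLpNorm_one_eq_lintegral_enorm, ← pres_eq] at h1
  exact h1

theorem Conv.unique {β v w : ℝ} {Λ : (N : ℕ) → Fin N → ℝ} (h1 : Conv β Λ v) (h2 : Conv β Λ w) :
    v = w := by
  obtain ⟨Ω, _, P, _, U, hU⟩ := exists_haar
  obtain ⟨ω, h3, h4⟩ := ((h1 Ω P U hU).1.and (h2 Ω P U hU).1).exists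
  exact tendsto_nhds_unique h3 h4

/-- The limit for spectra whose largest eigenvalue converges. -/
theorem conv_spiked {μ : Measure ℝ} [IsProbabilityMeasure μ] (hμ : IsCompact μ.support) {β lam : ℝ}
    (hβ : 0 < β) {Λ : (N : ℕ) → Fin N → ℝ} (h : Spec Λ μ lam) (v : ℝ) :
    Conv β Λ v ↔ valueR β (spiked μ lam) = v := by
  have h1 : Conv β Λ (valueR β (spiked μ lam)) := conv_of fun Ω _ P U hU =>
    (spiked_thm ⟨μ, inferInstance⟩ hμ hβ lam Λ ((wk_iff Λ _).2 (by
      simp only [Wk, one_div_mul_eq_div]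
      exact h.1)) h.2.2
      ((tendsto_add_atTop_iff_nat (f := fun N => ⨆ i, Λ N i) 1).2 h.2.1) Ω P U hU).imp_right
      fun h => h 1 le_rfl ENNReal.one_ne_top
  exact ⟨h1.unique, fun h2 => h2 ▸ h1⟩

theorem conv_iff {μ : Measure ℝ} [IsProbabilityMeasure μ] (hμ : IsCompact μ.support) {β : ℝ}
    (hβ : 0 < β) {Λ : (N : ℕ) → Fin N → ℝ} (h : Spec Λ μ (sSup μ.support)) (v : ℝ) :
    Conv β Λ v ↔ valueR β (rTransform μ) = v := by
  rw [conv_spiked hμ hβ h, spiked_eq hμ hβ (F.le_stInv hμ hβ)]

end Vale.Agent.N166X
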