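import Vale.Agent.N166X.Rtr

/-! P166, phase transition: comparison of the value of the formula with the annealed value. -/

namespace Vale.Agent.N166X

open MeasureTheory Filter Topology Set Vale.Agent.P166W95 Vale.Agent.P166 Vale.Agent.N166

/-- the spectral part -/
noncomputable def Sp (β : ℝ) (R : ℝ → ℝ) (k : ℕ) (m q : ℕ → ℝ) : ℝ :=
  β / 2 * ∫ s in (0 : ℝ)..1, R (β * level k m q s)

/-- the annealed value -/
noncomputable def An (β : ℝ) (R : ℝ → ℝ) : ℝ := β / 2 * ∫ s in (0 : ℝ)..1, R (β * (1 - s))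

/-- the second moment of the overlap -/
noncomputable def Qs (k : ℕ) (m q : ℕ → ℝ) : ℝ :=
  ∑ l ∈ Finset.range (k + 1), (m (l + 1) - m l) * q l ^ 2

theorem An_eq (β : ℝ) (R : ℝ → ℝ) : An β R = 1 / 2 * ∫ y in (0 : ℝ)..β, R y := by
  have h1 := intervalIntegral.integral_comp_sub_left (fun s => R (β * s)) (a := 0) (b := 1) 1
  have h2 := intervalIntegral.mul_integral_comp_mul_left (f := R) (a := 0) (b := 1) β
  simp only [sub_self, sub_zero, mul_zero, mul_one] at h1 h2
  rw [An, h1, ← h2]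
  ring

theorem spin_eq (k : ℕ) (m r : ℕ → ℝ) : spinPart k m r = P157.Par.spinPart k m r := by
  rw [spinPart, cascade_eq]
  rfl

variable {k : ℕ} {m q : ℕ → ℝ}

theorem dm_nonneg (hm : Exponents k m) {l : ℕ} (hl : l ∈ Finset.range (k + 1)) :
    0 ≤ m (l + 1) - m l := sub_nonneg.2 (hm.2.2 l (Nat.lt_succ_iff.1 (Finset.mem_range.1 hl))).le

theorem dm_sum (hm : Exponents k m) : ∑ l ∈ Finset.range (k + 1), (m (l + 1) - m l) = 1 := by
  rw [Finset.sum_range_sub, hm.1, hm.2.1, sub_zero]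

theorem q_mem (hq : MonoPath k q) (hq1 : q k < 1) {l : ℕ} (hl : l ∈ Finset.range (k + 1)) :
    0 ≤ q l ∧ q l ≤ 1 := by
  have hl' : l ≤ k := Nat.lt_succ_iff.1 (Finset.mem_range.1 hl)
  clear hl
  constructor
  · induction l with
    | zero => exact hq.1
    | succ l ih => exact (ih (by omega)).trans (hq.2 l (by omega))
  · induction hl' using Nat.decreasingInduction with
    | self => exact hq1.le
    | of_succ n hn ih => exact (hq.2 n hn).trans ih

theorem inner_ge (β : ℝ) (R : ℝ → ℝ) (hm : Exponents k m) (hq : MonoPath k q) (hq1 : q k < 1) :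
    Sp β R k m q + Qs k m q / 4 ≤ sSup (innerR β R k m q) := by
  refine le_of_forall_pos_le_add fun δ hδ => ?_
  obtain ⟨ε, hε⟩ : ∃ ε, ε = √δ / (k + 1) := ⟨_, rfl⟩
  have e0 : 0 < ε := by rw [hε]; positivity
  have hS : P157.Par.SPath k fun l => q l + ε * (l + 1) :=
    ⟨by push_cast; linarith [hq.1], fun l hl => by push_cast; linarith [hq.2 l hl]⟩
  have h1 := (isLUB_innerR β R hm hq hq1).1 ⟨_, P157.Par.sp6_path hS, rfl⟩
  have h2 := spin_ge hm hS
  have h3 : ∑ l ∈ Finset.range (k + 1), ((m (l + 1) - m l) * q l ^ 2 +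
      (m (l + 1) - m l) * (q l + ε * (l + 1)) ^ 2) ≤ ∑ l ∈ Finset.range (k + 1),
      (2 * ((m (l + 1) - m l) * (q l + ε * (l + 1)) * q l) + δ * (m (l + 1) - m l)) := by
    refine Finset.sum_le_sum fun l hl => ?_
    have h4 : (l : ℝ) + 1 ≤ k + 1 := by
      have : (l : ℝ) ≤ k := by exact_mod_cast Nat.lt_succ_iff.1 (Finset.mem_range.1 hl)
      linarith
    have h5 : ε * (l + 1) ≤ √δ := by
      rw [hε, div_mul_eq_mul_div, div_le_iff₀ (by positivity)]
      exact mul_le_mul_of_nonneg_left h4 (Real.sqrt_nonneg _)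
    have h6 : (ε * (l + 1)) ^ 2 ≤ δ := by
      rw [← Real.sq_sqrt hδ.le]
      exact pow_le_pow_left₀ (by positivity) h5 2
    nlinarith [mul_le_mul_of_nonneg_left h6 (dm_nonneg hm hl)]
  rw [Finset.sum_add_distrib, Finset.sum_add_distrib, ← Finset.mul_sum, ← Finset.mul_sum,
    dm_sum hm] at h3
  unfold funcR at h1
  rw [spin_eq] at h1
  unfold Sp Qs
  linarith

theorem val_ge {β v : ℝ} {R : ℝ → ℝ} (h : ∀ k m q, Exponents k m → MonoPath k q → q 0 = 0 →
    q k < 1 → v ≤ Sp β R k m q + Qs k m q / 4) : v ≤ valueR β R := by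
  refine le_csInf (outerR_ne β R) ?_
  rintro y ⟨k, m, q, hm, hq, hq0, hq1, rfl⟩
  exact (h k m q hm hq hq0 hq1).trans (inner_ge β R hm hq hq1)

theorem val_cmp {β β' c : ℝ} {R R' : ℝ → ℝ} (hb : BddBelow (outerR β R))
    (h : ∀ k m q, Exponents k m → MonoPath k q → q 0 = 0 → q k < 1 →
      Sp β R k m q ≤ Sp β' R' k m q + c) : valueR β R ≤ valueR β' R' + c := by
  refine sub_le_iff_le_add.1 (le_csInf (outerR_ne β' R') ?_)
  rintro y ⟨k, m, q, hm, hq, hq0, hq1, rfl⟩
  have h3 : valueR β R ≤ sSup (innerR β R k m q) := csInf_le hb ⟨k, m, q, hm, hq, hq0, hq1, rfl⟩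
  have h4 : sSup (innerR β R k m q) ≤ sSup (innerR β' R' k m q) + c := by
    refine (isLUB_innerR β R hm hq hq1).2 ?_
    rintro x ⟨r, hr, rfl⟩
    have h5 := (isLUB_innerR β' R' hm hq hq1).1 ⟨r, hr, rfl⟩
    have h6 := h k m q hm hq hq0 hq1
    unfold funcR at h5 ⊢
    unfold Sp at h6
    linarith
  linarith

theorem level_zero (s : ℝ) (hs : 0 ≤ s) : level 0 (fun l => l) (fun _ => 0) s = 1 - s := by
  simp [level, hs]

theorem exp_zero : Exponents 0 fun l => (l : ℝ) := ⟨by simp, by simp, fun l _ => by simp⟩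

theorem II_an {β : ℝ} {R : ℝ → ℝ} (h : II β R) :
    IntervalIntegrable (fun s => R (β * (1 - s))) volume 0 1 := by
  refine (h 0 _ (fun _ => 0) exp_zero ⟨le_rfl, fun _ _ => le_rfl⟩ rfl zero_lt_one).congr ?_
  intro s hs
  rw [uIoc_of_le zero_le_one] at hs
  simp only [level_zero s hs.1.le]

theorem val_le_an {β : ℝ} {R : ℝ → ℝ} (hb : BddBelow (outerR β R)) : valueR β R ≤ An β R := by
  have hq : MonoPath 0 fun _ => (0 : ℝ) := ⟨le_rfl, fun _ _ => le_rfl⟩
  refine (csInf_le hb ⟨0, _, _, exp_zero, hq, rfl, zero_lt_one, rfl⟩).trans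
    ((isLUB_innerR β R exp_zero hq zero_lt_one).2 ?_)
  rintro x ⟨r, hr, rfl⟩
  have h1 := F.spin_tangent_cl (r := fun _ => 0) (r' := r) exp_zero hq hr
  rw [spin_zero exp_zero, Finset.sum_range_one, F.spR_zero exp_zero rfl] at h1
  have h2 : ∫ s in (0 : ℝ)..1, R (β * level 0 (fun l => l) (fun _ => 0) s) =
      ∫ s in (0 : ℝ)..1, R (β * (1 - s)) :=
    intervalIntegral.integral_congr fun s hs => by
      rw [uIcc_of_le zero_le_one] at hs
      simp only [level_zero s hs.1]
  unfold funcR An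
  rw [spin_eq, h2]
  simp only [mul_zero, zero_mul, Finset.sum_const_zero, sub_zero, add_zero] at h1 ⊢
  linarith

theorem int_max {x : ℝ} (h0 : 0 ≤ x) (h1 : x ≤ 1) :
    ∫ s in (0 : ℝ)..1, max (x - s) 0 = x ^ 2 / 2 := by
  have hc : Continuous fun s : ℝ => max (x - s) 0 := by fun_prop
  rw [← intervalIntegral.integral_add_adjacent_intervals (b := x) (hc.intervalIntegrable _ _)
    (hc.intervalIntegrable _ _)]
  have e1 : ∫ s in (0 : ℝ)..x, max (x - s) 0 = ∫ s in (0 : ℝ)..x, (x - s) :=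
    intervalIntegral.integral_congr fun s hs => by
      rw [uIcc_of_le h0] at hs
      exact max_eq_left (sub_nonneg.2 hs.2)
  have e2 : ∫ s in x..1, max (x - s) 0 = ∫ s in x..1, (0 : ℝ) :=
    intervalIntegral.integral_congr fun s hs => by
      rw [uIcc_of_le h1] at hs
      exact max_eq_right (sub_nonpos.2 hs.1)
  rw [e1, e2, intervalIntegral.integral_sub (by simp) (by simp)]
  simp
  ring

theorem level_le (hm : Exponents k m) (s : ℝ) : level k m q s ≤ 1 - s :=
  sub_le_self _ (Finset.sum_nonneg fun _ hl => mul_nonneg (dm_nonneg hm hl) (le_max_right _ _))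

theorem level_pos {β : ℝ} (hβ : 0 < β) (hm : Exponents k m) (hq : MonoPath k q) (hq0 : q 0 = 0)
    (hq1 : q k < 1) {s : ℝ} (hs : s ∈ Ioo (0 : ℝ) 1) : 0 < level k m q s :=
  (mul_pos_iff_of_pos_left hβ).1 (level_mem hβ hm hq hq0 hq1 hs).1

theorem Sp_ge {β c : ℝ} (hβ : 0 < β) {R : ℝ → ℝ} (hI : II β R)
    (hR : ∀ y y', 0 < y → y ≤ y' → y' < β → R y' - R y ≤ c * (y' - y))
    (hm : Exponents k m) (hq : MonoPath k q) (hq0 : q 0 = 0) (hq1 : q k < 1) :
    An β R ≤ Sp β R k m q + c * β ^ 2 * Qs k m q / 4 := by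
  have hc : Continuous fun s : ℝ =>
      ∑ l ∈ Finset.range (k + 1), (m (l + 1) - m l) * max (q l - s) 0 := by fun_prop
  have h1 : ∫ s in (0 : ℝ)..1, R (β * (1 - s)) ≤ ∫ s in (0 : ℝ)..1, (R (β * level k m q s) +
      c * β * ∑ l ∈ Finset.range (k + 1), (m (l + 1) - m l) * max (q l - s) 0) := by
    refine intervalIntegral.integral_mono_on_of_le_Ioo zero_le_one (II_an hI)
      ((hI k m q hm hq hq0 hq1).add ((hc.intervalIntegrable _ _).const_mul _)) fun s hs => ?_
    have h2 := hR _ (β * (1 - s)) (level_mem hβ hm hq hq0 hq1 hs).1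
      (mul_le_mul_of_nonneg_left (level_le hm s) hβ.le) (by nlinarith [hs.1])
    have e : β * (1 - s) - β * level k m q s =
        β * ∑ l ∈ Finset.range (k + 1), (m (l + 1) - m l) * max (q l - s) 0 := by
      unfold level
      ring
    rw [e] at h2
    linarith
  rw [intervalIntegral.integral_add (hI k m q hm hq hq0 hq1)
    ((hc.intervalIntegrable _ _).const_mul _), intervalIntegral.integral_const_mul,
    intervalIntegral.integral_finsetSum fun l _ =>
      (by fun_prop : Continuous fun s : ℝ => (m (l + 1) - m l) * max (q l - s) 0).intervalIntegrable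
        _ _] at h1
  have h2 : ∑ l ∈ Finset.range (k + 1), ∫ s in (0 : ℝ)..1, (m (l + 1) - m l) * max (q l - s) 0 =
      Qs k m q / 2 := by
    rw [Qs, Finset.sum_div]
    refine Finset.sum_congr rfl fun l hl => ?_
    rw [intervalIntegral.integral_const_mul, int_max (q_mem hq hq1 hl).1 (q_mem hq hq1 hl).2]
    ring
  rw [h2] at h1
  have h3 := mul_le_mul_of_nonneg_left h1 (half_pos hβ).le
  unfold An Sp
  linarith

theorem Qs_nonneg (hm : Exponents k m) : 0 ≤ Qs k m q :=
  Finset.sum_nonneg fun _ hl => mul_nonneg (dm_nonneg hm hl) (sq_nonneg _)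

/-- The high temperature phase. -/
theorem an_le_val {β c : ℝ} (hβ : 0 < β) {R : ℝ → ℝ} (hI : II β R) (hc : c * β ^ 2 ≤ 1)
    (hR : ∀ y y', 0 < y → y ≤ y' → y' < β → R y' - R y ≤ c * (y' - y)) : An β R ≤ valueR β R :=
  val_ge fun k m q hm hq hq0 hq1 => by
    have h1 := Sp_ge hβ hI hR hm hq hq0 hq1
    have h2 := mul_le_mul_of_nonneg_right hc (Qs_nonneg (q := q) hm)
    linarith

/-- Beyond the edge the annealed value is not attained. -/
theorem val_lt_an {β b g : ℝ} (hβ : 0 < β) {R : ℝ → ℝ} (hI : II β R) (hb : BddBelow (outerR β R))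
    (hg0 : 0 < g) (hg : g < β) (hR : ∀ y, g ≤ y → R y = b - 1 / y) : valueR β R < An β R := by
  obtain ⟨x, hx⟩ : ∃ x, x = 1 - g / β := ⟨_, rfl⟩
  have x0 : 0 < x := by rw [hx, sub_pos, div_lt_one hβ]; exact hg
  have x1 : x < 1 := by rw [hx]; exact sub_lt_self _ (by positivity)
  have x2 : β * (1 - x) = g := by rw [hx]; field_simp; ring
  obtain ⟨γ, hγ, hgap⟩ := one_gap x0 x1
  have hq : MonoPath 1 fun l => x * (l : ℝ) := ⟨by simp, fun l _ => by push_cast; nlinarith⟩
  have hq0 : (fun l : ℕ => x * (l : ℝ)) 0 = 0 := by simp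
  have hq1 : (fun l : ℕ => x * (l : ℝ)) 1 < 1 := by simpa using x1
  have hl : ∀ s, 0 ≤ s → level 1 mh (fun l => x * (l : ℝ)) s = 1 - s - max (x - s) 0 / 2 := by
    intro s hs
    simp only [level, Finset.sum_range_succ, Finset.sum_range_zero, mh]
    norm_num [hs]
    ring
  have i1 := hI 1 mh _ mh_exp hq hq0 hq1
  have i2 := II_an hI
  have s1 : uIcc 0 x ⊆ uIcc (0 : ℝ) 1 := uIcc_subset_uIcc_left (by simp [x0.le, x1.le])
  have s2 : uIcc x 1 ⊆ uIcc (0 : ℝ) 1 := uIcc_subset_uIcc_right (by simp [x0.le, x1.le])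
  have e1 : ∫ s in x..1, R (β * level 1 mh (fun l => x * (l : ℝ)) s) =
      ∫ s in x..1, R (β * (1 - s)) := intervalIntegral.integral_congr fun s hs => by
    rw [uIcc_of_le x1.le] at hs
    simp only [hl s (x0.le.trans hs.1), max_eq_right (sub_nonpos.2 hs.1), zero_div, sub_zero]
  have e2 : ∫ s in (0 : ℝ)..x, (R (β * (1 - s)) - R (β * level 1 mh (fun l => x * (l : ℝ)) s)) =
      ∫ s in (0 : ℝ)..x, β⁻¹ * ((1 - x / 2 - s / 2)⁻¹ - (1 - s)⁻¹) :=
    intervalIntegral.integral_congr fun s hs => by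
      rw [uIcc_of_le x0.le] at hs
      have p1 : 0 < 1 - s := by linarith [hs.2]
      have p2 : 0 < 1 - x / 2 - s / 2 := by linarith [hs.2]
      have e : 1 - s - (x - s) / 2 = 1 - x / 2 - s / 2 := by ring
      simp only [hl s hs.1, max_eq_left (sub_nonneg.2 hs.2), e]
      rw [hR _ (by nlinarith [hs.2]), hR _ (by nlinarith [hs.2])]
      field_simp
      ring
  have e3 : ∫ s in (0 : ℝ)..x, ((1 - x / 2 - s / 2)⁻¹ - (1 - s)⁻¹) =
      2 * Real.log (1 - x / 2) - Real.log (1 - x) := by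
    rw [intervalIntegral.integral_eq_sub_of_hasDerivAt
      (f := fun s => -2 * Real.log (1 - x / 2 - s / 2) + Real.log (1 - s))]
    · rw [show 1 - x / 2 - x / 2 = 1 - x by ring]
      simp
      ring
    · intro s hs
      rw [uIcc_of_le x0.le] at hs
      have p1 : 0 < 1 - s := by linarith [hs.2]
      have p2 : 0 < 1 - x / 2 - s / 2 := by linarith [hs.2]
      have d1 := ((((hasDerivAt_id s).div_const 2).const_sub (1 - x / 2)).log p2.ne').const_mul (-2)
      have d2 := ((hasDerivAt_id s).const_sub 1).log p1.ne'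
      refine (d1.add d2).congr_deriv ?_
      simp only [id]
      field_simp
      ring
    · refine ContinuousOn.intervalIntegrable ?_
      rw [uIcc_of_le x0.le]
      exact (ContinuousOn.inv₀ (by fun_prop) fun s hs => by linarith [hs.2]).sub
        (ContinuousOn.inv₀ (by fun_prop) fun s hs => by linarith [hs.2])
  rw [intervalIntegral.integral_const_mul, e3,
    intervalIntegral.integral_sub (i2.mono_set s1) (i1.mono_set s1)] at e2
  have e4 := intervalIntegral.integral_add_adjacent_intervals (i1.mono_set s1) (i1.mono_set s2)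
  have e5 := intervalIntegral.integral_add_adjacent_intervals (i2.mono_set s1) (i2.mono_set s2)
  have h1 : valueR β R ≤ An β R - γ := by
    refine (csInf_le hb ⟨1, mh, _, mh_exp, hq, hq0, hq1, rfl⟩).trans
      ((isLUB_innerR β R mh_exp hq hq1).2 ?_)
    rintro y ⟨r, hr, rfl⟩
    have h2 := hgap r hr
    have e6 : β * (β⁻¹ * (2 * Real.log (1 - x / 2) - Real.log (1 - x))) =
        2 * Real.log (1 - x / 2) - Real.log (1 - x) := by field_simp
    unfold funcR An
    rw [spin_eq, ← e4, ← e5, e1]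
    simp only [Finset.sum_range_succ, Finset.sum_range_zero, mh]
    norm_num
    rw [← e2] at e6
    linarith
  linarith

end Vale.Agent.N166X
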