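import Mathlib

/-! P166: the model and the paramagnetic value. -/

namespace Vale.Agent.N166X

open MeasureTheory Filter Topology

/-- `U` is a Haar distributed random orthogonal matrix: its law is invariant under `O(N)`. -/
structure Haar {Ω : Type} [MeasurableSpace Ω] (P : Measure Ω) {N : ℕ}
    (U : Ω → Fin N → Fin N → ℝ) : Prop where
  meas : Measurable U
  orth : ∀ ω, Matrix.of (U ω) ∈ Matrix.orthogonalGroup (Fin N) ℝ
  inv : ∀ V ∈ Matrix.orthogonalGroup (Fin N) ℝ,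
    P.map (fun ω i j => ∑ k, V i k * U ω k j) = P.map U

/-- The pressure `P_N(β)` for `J = Uᵀ diag(Λ) U`; the spins take the values `±1`. -/
noncomputable def pres {N : ℕ} (β : ℝ) (Λ : Fin N → ℝ) (U : Fin N → Fin N → ℝ) : ℝ :=
  Real.log ((∑ σ : Fin N → ℤˣ, Real.exp (β / 2 *
    ∑ i, ∑ j, (σ i : ℤ) * (∑ k, U k i * Λ k * U k j) * (σ j : ℤ))) / 2 ^ N) / N

/-- `P_N(β) → v` almost surely and in `L¹`, for all Haar distributed `U_N` (any joint law). -/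
def Conv (β : ℝ) (Λ : (N : ℕ) → Fin N → ℝ) (v : ℝ) : Prop :=
  ∀ (Ω : Type) [MeasurableSpace Ω] (P : Measure Ω) [IsProbabilityMeasure P]
    (U : (N : ℕ) → Ω → Fin N → Fin N → ℝ), (∀ N, Haar P (U N)) →
    (∀ᵐ ω ∂P, Tendsto (fun N => pres β (Λ N) (U N ω)) atTop (𝓝 v)) ∧
      Tendsto (fun N => ∫⁻ ω, ‖pres β (Λ N) (U N ω) - v‖ₑ ∂P) atTop (𝓝 0)

/-- The empirical measures of the eigenvalues converge weakly to `μ`, the largest eigenvalue
converges to `lam`, and the eigenvalues are bounded below. -/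
def Spec (Λ : (N : ℕ) → Fin N → ℝ) (μ : Measure ℝ) (lam : ℝ) : Prop :=
  (∀ f : BoundedContinuousFunction ℝ ℝ,
    Tendsto (fun N : ℕ => (∑ i, f (Λ N i)) / N) atTop (𝓝 (∫ t, f t ∂μ))) ∧
  Tendsto (fun N => ⨆ i, Λ N i) atTop (𝓝 lam) ∧ ∃ c, ∀ N i, c ≤ Λ N i

/-- The Stieltjes transform `G`. -/
noncomputable def G (μ : Measure ℝ) (x : ℝ) : ℝ := ∫ t, (x - t)⁻¹ ∂μ

/-- The inverse of `G` on `(b, ∞)`, `b = max supp μ`; the value is `b` beyond the range of `G`. -/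
noncomputable def Ginv (μ : Measure ℝ) (b y : ℝ) : ℝ := sInf {x | b < x ∧ G μ x ≤ y}

/-- The R-transform. -/
noncomputable def R (μ : Measure ℝ) (b y : ℝ) : ℝ := Ginv μ b y - 1 / y

/-- `G(b+) ∈ (0, ∞]`. -/
noncomputable def edge (μ : Measure ℝ) (b : ℝ) : ENNReal := ∫⁻ t, (ENNReal.ofReal (b - t))⁻¹ ∂μ

/-- The paramagnetic value `A(β) = ½ ∫₀^β R`. -/
noncomputable def A (μ : Measure ℝ) (b β : ℝ) : ℝ := 1 / 2 * ∫ y in (0 : ℝ)..β, R μ b y

/-- The Marchenko-Pastur law with ratio `c ^ 2`, the limit spectrum of `ξ ξᵀ / N` for an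
`N × c ^ 2 N` Gaussian matrix `ξ`. -/
noncomputable def mp (c : ℝ) : Measure ℝ :=
  (volume.withDensity fun t =>
    ENNReal.ofReal (√(4 * c ^ 2 - (t - 1 - c ^ 2) ^ 2) / (2 * Real.pi * t))) +
  ENNReal.ofReal (1 - c ^ 2) • Measure.dirac 0

end Vale.Agent.N166X
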