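import Vale.Agent.N166X.Sc

/-! P166: the critical inverse temperature. -/

namespace Vale.Agent.N166X

open MeasureTheory Filter Topology Set Vale.Agent.P166W95 Vale.Agent.P166 Vale.Agent.N166

theorem supp_compact {μ : Measure ℝ} {a b : ℝ} (ha : IsLeast μ.support a)
    (hb : IsGreatest μ.support b) : IsCompact μ.support :=
  isCompact_Icc.of_isClosed_subset Measure.isClosed_support fun _ hx => ⟨ha.2 hx, hb.2 hx⟩

/-- The critical inverse temperature. -/
noncomputable def crit (μ : Measure ℝ) : ENNReal :=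
  ⨆ (β : ℝ) (_ : 0 < β ∧ An β (rTransform μ) ≤ valueR β (rTransform μ)), ENNReal.ofReal β

variable {μ : Measure ℝ} [IsProbabilityMeasure μ] (hμ : IsCompact μ.support)

include hμ

theorem le_crit {β : ℝ} (hβ : 0 < β) :
    ENNReal.ofReal β ≤ crit μ ↔ An β (rTransform μ) ≤ valueR β (rTransform μ) := by
  refine ⟨fun h => gap_closed hμ hβ fun x hx => ?_, fun h => le_iSup₂_of_le β ⟨hβ, h⟩ le_rfl⟩
  have h1 : ENNReal.ofReal x < crit μ := ((ENNReal.ofReal_lt_ofReal_iff hβ).2 hx.2).trans_le h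
  obtain ⟨y, h2⟩ := lt_iSup_iff.1 h1
  obtain ⟨⟨hy, h3⟩, h4⟩ := lt_iSup_iff.1 h2
  linarith [gap_mono hμ hx.1 ((ENNReal.ofReal_lt_ofReal_iff hy).1 h4).le]

theorem crit_of_lip {β : ℝ} (hβ : 0 < β) (h : ∀ y y', 0 < y → y ≤ y' → y' < β →
    rTransform μ y' - rTransform μ y ≤ (y' - y) / β ^ 2) : ENNReal.ofReal β ≤ crit μ :=
  (le_crit hμ hβ).2 (an_le_val (c := 1 / β ^ 2) hβ (II_r hμ hβ) (by field_simp; rfl)
    fun y y' h1 h2 h3 => (h y y' h1 h2 h3).trans_eq (by ring))

theorem crit_of_small {β : ℝ} (hβ : 0 < β) (h : β * (sSup μ.support - sInf μ.support) ≤ 1 / 2) :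
    ENNReal.ofReal β ≤ crit μ := by
  have h0 := F.rt2_inf_le_sup hμ
  have h1 : 0 ≤ β * (sSup μ.support - sInf μ.support) := mul_nonneg hβ.le (by linarith)
  exact (le_crit hμ hβ).2 (an_le_val (c := 4 * (sSup μ.support - sInf μ.support) ^ 2) hβ
    (II_r hμ hβ) (by nlinarith) fun y y' h2 h3 h4 => R_lip_small hμ h2 h3 (by nlinarith))

omit hμ in
theorem edge_pos : 0 < edge μ (sSup μ.support) := by
  rw [edge, lintegral_pos_iff_support (by fun_prop)]
  have : (Function.support fun t => (ENNReal.ofReal (sSup μ.support - t))⁻¹) = univ :=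
    eq_univ_of_forall fun t => by simp
  simp [this]

theorem crit_le_edge : crit μ ≤ edge μ (sSup μ.support) := by
  refine iSup₂_le fun β hβ => le_of_not_gt fun h => ?_
  obtain ⟨g, g0, g1, g2⟩ := ENNReal.lt_iff_exists_real_btwn.1 h
  have g3 : 0 < g := ENNReal.ofReal_pos.1 (edge_pos.trans g1)
  exact absurd (edge_lt hμ g3 ((ENNReal.ofReal_lt_ofReal_iff hβ.1).1 g2) (K_edge hμ g3 g1.le))
    (not_lt.2 hβ.2)

theorem crit_of_convex (h : ConvexOn ℝ {y | 0 < y ∧ ENNReal.ofReal y < edge μ (sSup μ.support)}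
    (rTransform μ)) : crit μ = edge μ (sSup μ.support) := by
  refine le_antisymm (crit_le_edge hμ) (le_of_forall_lt_imp_le_of_dense fun x hx => ?_)
  obtain ⟨β, -, h1, h2⟩ := ENNReal.lt_iff_exists_real_btwn.1 hx
  have hβ : 0 < β := ENNReal.ofReal_pos.1 (lt_of_le_of_lt bot_le h1)
  refine h1.le.trans (crit_of_lip hμ hβ fun y y' h3 h4 h5 => ?_)
  refine (lip_of_convex hμ h (fun z z0 z1 => ⟨z0, ?_⟩) h3 h4 h5).trans_eq (by ring)
  exact ((ENNReal.ofReal_lt_ofReal_iff hβ).2 z1).trans h2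

theorem crit_top : crit μ = ⊤ ↔ sInf μ.support = sSup μ.support := by
  constructor
  · intro h
    refine (F.rt2_inf_le_sup hμ).eq_or_lt.resolve_right fun hab => ?_
    obtain ⟨β, hβ, h1⟩ := ent_large hμ hab
    exact absurd (ent_crit hμ hβ ((le_crit hμ hβ).1 (h ▸ le_top))) (not_le.2 h1)
  · intro h
    refine ENNReal.eq_top_of_forall_nnreal_le fun r => ?_
    have h1 := crit_of_small hμ (β := r + 1) (by positivity) (by rw [h]; simp)
    refine le_trans ?_ h1
    rw [← ENNReal.ofReal_coe_nnreal]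
    exact ENNReal.ofReal_le_ofReal (by linarith)

theorem outlier {β : ℝ} (hβ : 0 < β) (h : ENNReal.ofReal β < crit μ) (lam : ℝ) :
    An β (rTransform μ) ≤ valueR β (spiked μ lam) ∧
      (valueR β (spiked μ lam) = An β (rTransform μ) ↔ lam ≤ stieltjesInv μ β) := by
  obtain ⟨β1, -, h1, h2⟩ := ENNReal.lt_iff_exists_real_btwn.1 h
  have hβ1 : 0 < β1 := ENNReal.ofReal_pos.1 (lt_of_le_of_lt bot_le h1)
  have h3 := spiked_gt hμ (lam := lam) hβ ((ENNReal.ofReal_lt_ofReal_iff hβ1).1 h1)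
    ((le_crit hμ hβ1).1 h2.le)
  have h4 : valueR β (rTransform μ) = An β (rTransform μ) :=
    le_antisymm (val_le_an (bdd_r hμ hβ)) ((le_crit hμ hβ).1 h.le)
  rcases le_or_gt lam (stieltjesInv μ β) with hl | hl
  · rw [spiked_eq hμ hβ hl, h4]
    exact ⟨le_rfl, iff_of_true rfl hl⟩
  · exact ⟨(h3 hl).le, iff_of_false (h3 hl).ne' (not_le.2 hl)⟩

theorem edge_le {g : ℝ} (h : ∀ z, sSup μ.support < z → G μ z ≤ g) :
    edge μ (sSup μ.support) ≤ ENNReal.ofReal g := by
  have ht : Tendsto (fun n : ℕ => sSup μ.support + 1 / ((n : ℝ) + 1)) atTop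
      (𝓝 (sSup μ.support)) := by
    simpa using tendsto_one_div_add_atTop_nhds_zero_nat.const_add (sSup μ.support)
  have h1 : edge μ (sSup μ.support) = ∫⁻ t, liminf (fun n : ℕ =>
      (ENNReal.ofReal (sSup μ.support + 1 / ((n : ℝ) + 1) - t))⁻¹) atTop ∂μ :=
    lintegral_congr fun t => (Tendsto.liminf_eq (tendsto_inv_iff.2
      (ENNReal.tendsto_ofReal (ht.sub_const t)))).symm
  rw [h1]
  refine (lintegral_liminf_le fun n => by fun_prop).trans
    (liminf_le_of_frequently_le' (Frequently.of_forall fun n => ?_))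
  have hz : sSup μ.support < sSup μ.support + 1 / ((n : ℝ) + 1) := lt_add_of_pos_right _ (by
    positivity)
  refine le_trans (le_of_eq ?_) (ENNReal.ofReal_le_ofReal (h _ hz))
  rw [G, ofReal_integral_eq_lintegral_ofReal (F.rt_int_inv hμ hz)
    ((F.rt2_ae_le hμ).mono fun t ht => inv_nonneg.2 (by linarith))]
  refine lintegral_congr_ae ((F.rt2_ae_le hμ).mono fun t ht => ?_)
  exact (ENNReal.ofReal_inv_of_pos (by linarith)).symm

theorem le_edge {y : ℝ} (hy : 0 < y) (h : sSup μ.support < stieltjesInv μ y) :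
    ENNReal.ofReal y ≤ edge μ (sSup μ.support) := by
  refine le_of_not_gt fun h1 => h.ne' (K_edge hμ hy h1.le)

/-- The edge and the R-transform from a parametrisation of the Stieltjes transform. -/
theorem of_param {g : ℝ} (hg : 0 < g) {x : ℝ → ℝ} (hx : ∀ y ∈ Ioo 0 g,
    sSup μ.support < x y ∧ G μ (x y) = y) (ht : Tendsto x (𝓝[<] g) (𝓝 (sSup μ.support))) :
    edge μ (sSup μ.support) = ENNReal.ofReal g ∧
      ∀ y ∈ Ioo 0 g, rTransform μ y = x y - 1 / y := by
  have hK : ∀ y ∈ Ioo 0 g, stieltjesInv μ y = x y := fun y hy =>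
    F.stInv_eq hμ (hx y hy).1 (hx y hy).2
  refine ⟨le_antisymm (edge_le hμ fun z hz => ?_) ?_, fun y hy => by rw [rTransform, hK y hy]⟩
  · obtain ⟨y, h1, h2⟩ := ((ht.eventually (gt_mem_nhds hz)).and (Ioo_mem_nhdsLT hg)).exists
    have h3 : G μ z < G μ (x y) := F.st_anti hμ (hx y h2).1 h1
    linarith [(hx y h2).2, h2.2]
  · refine le_of_tendsto ((ENNReal.continuous_ofReal.tendsto g).mono_left
      (nhdsWithin_le_nhds (s := Iio g))) (mem_of_superset (Ioo_mem_nhdsLT hg) fun y hy => ?_)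
    exact le_edge hμ hy.1 (hK y hy ▸ (hx y hy).1)

omit hμ [IsProbabilityMeasure μ]

theorem sc_facts : IsProbabilityMeasure sc ∧ IsLeast sc.support (-2) ∧ IsGreatest sc.support 2 ∧
    edge sc 2 = 1 ∧ ∀ y, 0 < y → y < 1 → R sc 2 y = y := by
  have := sc_prob
  have h1 : IsLeast sc.support (-2) := sc_supp ▸ isLeast_Icc (by norm_num)
  have h2 : IsGreatest sc.support 2 := sc_supp ▸ isGreatest_Icc (by norm_num)
  have h3 := of_param (supp_compact h1 h2) one_pos (x := fun y => y + 1 / y) (fun y hy => by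
    refine ⟨?_, sc_G hy.1 hy.2⟩
    have e : y + 1 / y - 2 = (1 - y) ^ 2 / y := by have := hy.1.ne'; field_simp; ring
    have : 0 < (1 - y) ^ 2 / y := div_pos (pow_pos (by linarith [hy.2]) 2) hy.1
    rw [h2.csSup_eq]
    linarith) (by
      have : ContinuousAt (fun y : ℝ => y + 1 / y) 1 := by fun_prop (disch := norm_num)
      rw [h2.csSup_eq]
      convert this.tendsto.mono_left nhdsWithin_le_nhds using 2
      norm_num)
  refine ⟨this, h1, h2, ?_, fun y h0 hy => ?_⟩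
  · simpa [h2.csSup_eq] using h3.1
  · have h4 := h3.2 y ⟨h0, hy⟩
    rw [← h2.csSup_eq]
    exact h4.trans (by ring)

end Vale.Agent.N166X
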