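import Vale.Agent.N166X.Main

/-! P166: the Marchenko-Pastur law. -/

namespace Vale.Agent.N166X

open MeasureTheory Filter Topology Set Vale.Agent.P166W95 Vale.Agent.P166 Vale.Agent.N166

theorem sc_G' {y : ℝ} (h0 : 0 < y) (h1 : y ≤ 1) : G sc (y + 1 / y) = y := by
  rcases h1.lt_or_eq with h | rfl
  · exact sc_G h0 h
  · obtain ⟨hp, ha, hb, he, -⟩ := sc_facts
    have h2 : ∀ᵐ t ∂sc, t < 2 := by
      have h3 : ∀ᵐ t ∂sc, t ≠ 2 :=
        (withDensity_absolutelyContinuous _ _).ae_le (Measure.ae_ne volume (2 : ℝ))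
      have h4 := F.rt2_ae_le (supp_compact ha hb)
      rw [hb.csSup_eq] at h4
      filter_upwards [h3, h4] with t h h' using lt_of_le_of_ne h' h
    rw [show (1 : ℝ) + 1 / 1 = 2 by norm_num, G, integral_eq_lintegral_of_nonneg_ae
      (h2.mono fun t ht => inv_nonneg.2 (by linarith)) (Measurable.aestronglyMeasurable (by
        fun_prop)), lintegral_congr_ae (h2.mono fun t ht => ENNReal.ofReal_inv_of_pos
        (by linarith))]
    exact (congrArg ENNReal.toReal he).trans rfl

theorem chg {d : ℝ} (hd : d ≠ 0) (m : ℝ) (g : ℝ → ℝ) :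
    (2 * Real.pi)⁻¹ * ∫ t, √(4 * d ^ 2 - (t - m) ^ 2) * g t = d ^ 2 * ∫ u, g (m + d * u) ∂sc := by
  have h := Measure.integral_comp_mul_left (fun s => √(4 * d ^ 2 - s ^ 2) * g (m + s)) d
  rw [← integral_add_left_eq_self _ m, sc_int]
  have e : ∀ u, √(4 * d ^ 2 - (d * u) ^ 2) = |d| * √(4 - u ^ 2) := fun u => by
    rw [← Real.sqrt_sq_eq_abs, ← Real.sqrt_mul (sq_nonneg d)]
    congr 1
    ring
  simp only [e, mul_assoc, integral_const_mul, smul_eq_mul, abs_inv, add_sub_cancel_left] at h ⊢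
  rw [(eq_inv_mul_iff_mul_eq₀ (abs_pos.2 hd).ne').1 h |>.symm, ← mul_assoc |d|, abs_mul_abs_self]
  ring

/-- The density of the absolutely continuous part. -/
noncomputable def rho (c t : ℝ) : ℝ := √(4 * c ^ 2 - (t - 1 - c ^ 2) ^ 2) / (2 * Real.pi * t)

theorem rad (c t : ℝ) :
    4 * c ^ 2 - (t - 1 - c ^ 2) ^ 2 = ((1 + c) ^ 2 - t) * (t - (1 - c) ^ 2) := by ring

variable {c : ℝ} (hc : 0 < c)

include hc

omit hc in
theorem rad_zero {t : ℝ} (ht : t ≤ 0) : √(4 * c ^ 2 - (t - 1 - c ^ 2) ^ 2) = 0 := by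
  rw [rad]
  exact Real.sqrt_eq_zero_of_nonpos (mul_nonpos_of_nonneg_of_nonpos (by nlinarith)
    (by nlinarith [sq_nonneg (1 - c)]))

omit hc in
theorem rho_nonneg (t : ℝ) : 0 ≤ rho c t := by
  rcases le_or_gt t 0 with h | h
  · simp [rho, rad_zero h]
  · have := Real.pi_pos
    unfold rho
    positivity

theorem rho_ne : {t | ENNReal.ofReal (rho c t) ≠ 0} = Ioo ((1 - c) ^ 2) ((1 + c) ^ 2) := by
  ext t
  simp only [mem_ofPred_eq, ne_eq, ENNReal.ofReal_eq_zero, not_le, mem_Ioo]
  constructor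
  · intro h
    have h1 : 0 < ((1 + c) ^ 2 - t) * (t - (1 - c) ^ 2) := by
      by_contra h2
      simp [rho, rad, Real.sqrt_eq_zero_of_nonpos (not_lt.1 h2)] at h
    constructor <;> nlinarith
  · intro h
    have h1 : 0 < t := (sq_nonneg _).trans_lt h.1
    have := Real.pi_pos
    rw [rho, rad]
    exact div_pos (Real.sqrt_pos.2 (mul_pos (by linarith [h.2]) (by linarith [h.1])))
      (by positivity)

theorem G_scale {w : ℝ} (h0 : 0 < w) (h1 : w ≤ 1) :
    c ^ 2 * ∫ u, (c * (w + 1 / w - u))⁻¹ ∂sc = c * w := by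
  simp only [mul_inv, integral_const_mul]
  rw [show ∫ u, (w + 1 / w - u)⁻¹ ∂sc = w from sc_G' h0 h1]
  field_simp

theorem rho_int : ∫ t, rho c t = min (c ^ 2) 1 := by
  have h := chg (neg_ne_zero.2 hc.ne') (1 + c ^ 2) fun t => t⁻¹
  have h1 : ∫ t, rho c t = c ^ 2 * ∫ u, (c * (c + 1 / c - u))⁻¹ ∂sc := by
    rw [← integral_const_mul, neg_sq] at h
    refine (integral_congr_ae (ae_of_all _ fun t => ?_)).trans (h.trans ?_)
    · simp only [rho, sub_sub]
      ring
    · congr 2
      funext u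
      congr 1
      field_simp
      ring
  rw [h1]
  rcases le_total c 1 with h2 | h2
  · rw [G_scale hc hc h2, min_eq_left (by nlinarith), sq]
  · have h3 := G_scale hc (one_div_pos.2 hc) ((div_le_one hc).2 h2)
    rw [one_div_one_div, add_comm] at h3
    rw [h3, min_eq_right (by nlinarith)]
    field_simp

omit hc in
theorem rho_meas : Measurable fun t => ENNReal.ofReal (rho c t) := by
  unfold rho
  fun_prop

omit hc in
theorem mp_eq : mp c = (volume.withDensity fun t => ENNReal.ofReal (rho c t)) +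
    ENNReal.ofReal (1 - c ^ 2) • Measure.dirac 0 := rfl

theorem mp_prob : IsProbabilityMeasure (mp c) := by
  have h := rho_int hc
  have h0 : 0 < min (c ^ 2) 1 := by positivity
  have hi : Integrable (rho c) := Integrable.of_integral_ne_zero (h ▸ h0.ne')
  refine ⟨?_⟩
  rw [mp_eq, Measure.add_apply, withDensity_apply _ MeasurableSet.univ, Measure.restrict_univ,
    ← ofReal_integral_eq_lintegral_ofReal hi (ae_of_all _ rho_nonneg), h, Measure.smul_apply,
    measure_univ, smul_eq_mul, mul_one]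
  rcases le_total (c ^ 2) 1 with h2 | h2
  · rw [min_eq_left h2, ← ENNReal.ofReal_add (by positivity) (by linarith)]
    simp
  · rw [min_eq_right h2, ENNReal.ofReal_of_nonpos (by linarith : 1 - c ^ 2 ≤ 0)]
    simp

theorem mp_supp : (mp c).support ⊆ Icc 0 ((1 + c) ^ 2) ∧ (1 + c) ^ 2 ∈ (mp c).support := by
  constructor
  · refine Measure.support_subset_of_isClosed isClosed_Icc ?_
    rw [mem_ae_iff, mp_eq, Measure.add_apply, add_eq_zero]
    constructor
    · rw [withDensity_apply_eq_zero rho_meas, rho_ne hc, (disjoint_compl_right.mono_left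
        (Ioo_subset_Icc_self.trans (Icc_subset_Icc_left (sq_nonneg _)))).inter_eq, measure_empty]
    · rw [Measure.smul_apply, Measure.dirac_apply' _ measurableSet_Icc.compl,
        indicator_of_notMem (not_not.2 ⟨le_rfl, by positivity⟩), smul_zero]
  · rw [Measure.mem_support_iff_forall]
    intro U hU
    rw [mp_eq, Measure.add_apply]
    refine lt_of_lt_of_le ?_ le_self_add
    rw [pos_iff_ne_zero, Ne, withDensity_apply_eq_zero rho_meas, rho_ne hc]
    obtain ⟨V, hV, hVo, htV⟩ := mem_nhds_iff.1 hU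
    have hlt : (1 - c) ^ 2 < (1 + c) ^ 2 := by nlinarith
    have ht : (1 + c) ^ 2 ∈ closure (Ioo ((1 - c) ^ 2) ((1 + c) ^ 2)) := by
      rw [closure_Ioo hlt.ne]
      exact ⟨hlt.le, le_rfl⟩
    have h1 := (isOpen_Ioo.inter hVo).measure_pos volume
      (by rw [inter_comm]; exact mem_closure_iff.1 ht V hVo htV)
    exact (h1.trans_le (measure_mono (inter_subset_inter_right _ hV))).ne'

theorem mp_top : IsGreatest (mp c).support ((1 + c) ^ 2) :=
  ⟨(mp_supp hc).2, fun _ ht => ((mp_supp hc).1 ht).2⟩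

theorem mp_compact : IsCompact (mp c).support :=
  isCompact_Icc.of_isClosed_subset Measure.isClosed_support (mp_supp hc).1

theorem mp_int {g : ℝ → ℝ} (hg : Integrable (fun t => t * g t) (mp c)) :
    ∫ t, t * g t ∂mp c = c ^ 2 * ∫ u, g (1 + c ^ 2 + c * u) ∂sc := by
  rw [mp_eq] at hg ⊢
  rw [integral_add_measure hg.left_of_add_measure hg.right_of_add_measure, integral_smul_measure,
    integral_dirac, zero_mul, smul_zero, add_zero, integral_withDensity_eq_integral_toReal_smul
      rho_meas (ae_of_all _ fun _ => by simp), ← chg hc.ne', ← integral_const_mul]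
  refine integral_congr_ae ((Measure.ae_ne volume (0 : ℝ)).mono fun t ht => ?_)
  simp only [smul_eq_mul, ENNReal.toReal_ofReal (rho_nonneg t)]
  simp only [rho, sub_sub]
  field_simp

omit hc in
theorem mp_x {y : ℝ} (h0 : 0 < y) (h1 : y < 1) :
    1 / y + c ^ 2 / (1 - y) - (1 + c) ^ 2 = (1 - (1 + c) * y) ^ 2 / (y * (1 - y)) := by
  have : 0 < 1 - y := by linarith
  field_simp
  ring

theorem mp_G {y : ℝ} (hy : y ∈ Ioo 0 (1 / (1 + c))) :
    sSup (mp c).support < 1 / y + c ^ 2 / (1 - y) ∧ G (mp c) (1 / y + c ^ 2 / (1 - y)) = y := by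
  have := mp_prob hc
  have h0 := hy.1
  have h1 : y * (1 + c) < 1 := (lt_div_iff₀ (by positivity)).1 hy.2
  have h2 : 0 < 1 - y := by nlinarith
  have h3 : sSup (mp c).support < 1 / y + c ^ 2 / (1 - y) := by
    have := mp_x (c := c) h0 (by linarith)
    have : 0 < (1 - (1 + c) * y) ^ 2 / (y * (1 - y)) :=
      div_pos (pow_pos (by linarith) 2) (mul_pos h0 h2)
    rw [(mp_top hc).csSup_eq]
    linarith
  refine ⟨h3, ?_⟩
  obtain ⟨z, hz⟩ : ∃ z, z = 1 / y + c ^ 2 / (1 - y) := ⟨_, rfl⟩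
  rw [← hz] at h3 ⊢
  have hi := F.rt_int_inv (mp_compact hc) h3
  have he : (fun t => z * (z - t)⁻¹ - 1) =ᵐ[mp c] fun t => t * (z - t)⁻¹ :=
    (F.rt2_ae_le (mp_compact hc)).mono fun t ht => by
      have : z - t ≠ 0 := by linarith
      field_simp
      ring
  have h4 := mp_int hc (g := fun t => (z - t)⁻¹)
    (((hi.const_mul z).sub (integrable_const 1)).congr he)
  have h5 := G_scale hc (w := c * y / (1 - y)) (by positivity) ((div_le_one h2).2 (by linarith))
  rw [← integral_congr_ae he, integral_sub (hi.const_mul z) (integrable_const 1),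
    integral_const_mul] at h4
  have h6 : ∀ u, z - (1 + c ^ 2 + c * u) = c * (c * y / (1 - y) + 1 / (c * y / (1 - y)) - u) := by
    intro u
    rw [hz]
    field_simp
    ring
  simp only [h6, h5, integral_const, probReal_univ, one_smul] at h4
  have hz0 : 0 < z := by rw [hz]; positivity
  refine mul_left_cancel₀ hz0.ne' ((sub_eq_iff_eq_add.1 h4).trans ?_)
  rw [hz]
  field_simp
  ring

theorem mp_R : edge (mp c) (sSup (mp c).support) = ENNReal.ofReal (1 / (1 + c)) ∧
    ∀ y ∈ Ioo 0 (1 / (1 + c)), rTransform (mp c) y = c ^ 2 / (1 - y) := by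
  have := mp_prob hc
  have h := of_param (mp_compact hc) (g := 1 / (1 + c)) (by positivity)
    (x := fun y => 1 / y + c ^ 2 / (1 - y)) (fun y hy => mp_G hc hy) (by
      have e : 1 - 1 / (1 + c) = c / (1 + c) := by field_simp; ring
      have : ContinuousAt (fun y : ℝ => 1 / y + c ^ 2 / (1 - y)) (1 / (1 + c)) := by
        fun_prop (disch := first | positivity | (rw [e]; positivity))
      rw [(mp_top hc).csSup_eq]
      convert this.tendsto.mono_left nhdsWithin_le_nhds using 2
      rw [e]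
      field_simp)
  exact ⟨h.1, fun y hy => (h.2 y hy).trans (by ring)⟩

theorem mp_crit : crit (mp c) = ENNReal.ofReal (1 / (1 + c)) := by
  have := mp_prob hc
  refine le_antisymm ((crit_le_edge (mp_compact hc)).trans (mp_R hc).1.le)
    (crit_of_lip (mp_compact hc) (by positivity) fun y y' h0 h1 h2 => ?_)
  rw [(mp_R hc).2 y ⟨h0, h1.trans_lt h2⟩, (mp_R hc).2 y' ⟨h0.trans_le h1, h2⟩]
  have h3 : y' * (1 + c) < 1 := (lt_div_iff₀ (by positivity)).1 h2
  have h4 : c < (1 + c) * (1 - y') := by nlinarith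
  have h5 : c < (1 + c) * (1 - y) := by nlinarith
  have h6 : 0 < 1 - y' := by nlinarith
  have h7 : 0 < 1 - y := by linarith
  rw [div_sub_div _ _ h6.ne' h7.ne', div_le_div_iff₀ (by positivity) (by positivity)]
  have h8 : c * c ≤ (1 + c) * (1 - y') * ((1 + c) * (1 - y)) :=
    mul_le_mul h4.le h5.le hc.le (hc.trans h4).le
  have h9 := mul_le_mul_of_nonneg_left h8 (sub_nonneg.2 h1)
  field_simp
  nlinarith

theorem mp_le {y : ℝ} (h0 : 0 < y) (h1 : y < 1) : rTransform (mp c) y ≤ c ^ 2 / (1 - y) := by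
  have := mp_prob hc
  rcases lt_or_ge y (1 / (1 + c)) with h | h
  · exact ((mp_R hc).2 y ⟨h0, h⟩).le
  · have h2 := K_edge (mp_compact hc) h0 ((mp_R hc).1.le.trans (ENNReal.ofReal_le_ofReal h))
    have h3 := mp_x (c := c) h0 h1
    have h4 : 0 ≤ (1 - (1 + c) * y) ^ 2 / (y * (1 - y)) :=
      div_nonneg (sq_nonneg _) (mul_pos h0 (by linarith)).le
    rw [rTransform, h2, (mp_top hc).csSup_eq]
    linarith

omit hc in
theorem log_int {β : ℝ} (h0 : 0 < β) (h1 : β < 1) :
    IntervalIntegrable (fun y => c ^ 2 / (1 - y)) volume 0 β ∧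
      1 / 2 * ∫ y in (0 : ℝ)..β, c ^ 2 / (1 - y) = -(c ^ 2 / 2) * Real.log (1 - β) := by
  have hp : ∀ y ∈ uIcc 0 β, 1 - y ≠ 0 := fun y hy => by
    rw [uIcc_of_le h0.le] at hy
    linarith [hy.2]
  have hi : IntervalIntegrable (fun y => c ^ 2 / (1 - y)) volume 0 β :=
    (ContinuousOn.div (by fun_prop) (by fun_prop) hp).intervalIntegrable
  refine ⟨hi, ?_⟩
  rw [intervalIntegral.integral_eq_sub_of_hasDerivAt (f := fun y => -c ^ 2 * Real.log (1 - y))
    (fun y hy => ((((hasDerivAt_id y).const_sub 1).log (hp y hy)).const_mul _).congr_deriv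
      (by simp only [id]; ring)) hi]
  simp
  ring

theorem mp_iff {β : ℝ} (h0 : 0 < β) (h1 : β < 1) :
    valueR β (rTransform (mp c)) = -(c ^ 2 / 2) * Real.log (1 - β) ↔ β ≤ 1 / (1 + c) := by
  have := mp_prob hc
  have hμ := mp_compact hc
  have h2 := le_crit hμ h0
  have h3 := val_le_an (bdd_r hμ h0)
  obtain ⟨h4, h5⟩ := log_int (c := c) h0 h1
  rw [mp_crit hc, ENNReal.ofReal_le_ofReal_iff (by positivity)] at h2
  rw [An_eq] at h2 h3
  constructor
  · intro h
    have := intervalIntegral.integral_mono_on_of_le_Ioo h0.le (R_ii hμ le_rfl h0.le) h4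
      fun y hy => mp_le hc hy.1 (hy.2.trans h1)
    exact h2.2 (by linarith)
  · intro h
    rw [le_antisymm h3 (h2.1 h), ← h5]
    congr 1
    refine intervalIntegral.integral_congr_ae ((Measure.ae_ne volume β).mono fun y hy hy' => ?_)
    rw [uIoc_of_le h0.le] at hy'
    exact (mp_R hc).2 y ⟨hy'.1, (lt_of_le_of_ne hy'.2 hy).trans_le h⟩

end Vale.Agent.N166X
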