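import Vale.Agent.N166X.Up

/-! P166, phase transition: properties of the R-transform. -/

namespace Vale.Agent.N166X

open MeasureTheory Filter Topology Set Vale.Agent.P166W95 Vale.Agent.P166

variable {μ : Measure ℝ} [IsProbabilityMeasure μ] (hμ : IsCompact μ.support)

include hμ

theorem K_convex : ConvexOn ℝ (Ioi 0) fun w => stieltjesInv μ w⁻¹ := by
  refine ⟨convex_Ioi 0, fun w1 h1 w2 h2 a b ha hb hab => ?_⟩
  have h1' : (0 : ℝ) < w1 := h1
  have h2' : (0 : ℝ) < w2 := h2
  simp only [smul_eq_mul]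
  refine le_of_forall_pos_le_add fun ε hε => ?_
  obtain ⟨x1, hx1⟩ : ∃ x, x = stieltjesInv μ w1⁻¹ + ε := ⟨_, rfl⟩
  obtain ⟨x2, hx2⟩ : ∃ x, x = stieltjesInv μ w2⁻¹ + ε := ⟨_, rfl⟩
  have b1 : sSup μ.support ≤ stieltjesInv μ w1⁻¹ := F.le_stInv hμ (inv_pos.2 h1')
  have b2 : sSup μ.support ≤ stieltjesInv μ w2⁻¹ := F.le_stInv hμ (inv_pos.2 h2')
  have c1 : sSup μ.support < x1 := by linarith
  have c2 : sSup μ.support < x2 := by linarith
  have g1 := F.rt_lt_of_stInv_lt hμ (inv_pos.2 h1') (z := x1)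
    (by change stieltjesInv μ _ < _; linarith)
  have g2 := F.rt_lt_of_stInv_lt hμ (inv_pos.2 h2') (z := x2)
    (by change stieltjesInv μ _ < _; linarith)
  have hw : 0 < a * w1 + b * w2 := (convex_Ioi (0 : ℝ)) h1 h2 ha hb hab
  have hx : sSup μ.support < a * x1 + b * x2 := (convex_Ioi (sSup μ.support)) c1 c2 ha hb hab
  have h3 : stieltjesInv μ (a * w1 + b * w2)⁻¹ ≤ a * x1 + b * x2 := by
    refine F.rt_stInv_le hx ?_
    have i1 := F.rt_int_inv hμ c1
    have i2 := F.rt_int_inv hμ c2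
    have h4 : ∫ t, (a * w1 + b * w2) ^ 2 * (a * x1 + b * x2 - t)⁻¹ ∂μ ≤
        ∫ t, (a * w1 ^ 2 * (x1 - t)⁻¹ + b * w2 ^ 2 * (x2 - t)⁻¹) ∂μ := by
      refine integral_mono_ae ((F.rt_int_inv hμ hx).const_mul _)
        ((i1.const_mul _).add (i2.const_mul _)) ?_
      filter_upwards [F.rt2_ae_le hμ] with t ht
      obtain ⟨u1, hu1⟩ : ∃ u, u = x1 - t := ⟨_, rfl⟩
      obtain ⟨u2, hu2⟩ : ∃ u, u = x2 - t := ⟨_, rfl⟩
      have p1 : 0 < u1 := by linarith
      have p2 : 0 < u2 := by linarith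
      have e : a * x1 + b * x2 - t = a * u1 + b * u2 := by
        rw [hu1, hu2]
        linear_combination t * hab
      have p3 : 0 < a * u1 + b * u2 := by linarith
      rw [e, ← hu1, ← hu2]
      have e2 : a * w1 ^ 2 * u1⁻¹ + b * w2 ^ 2 * u2⁻¹ - (a * w1 + b * w2) ^ 2 * (a * u1 + b * u2)⁻¹ =
          a * b * (w1 * u2 - w2 * u1) ^ 2 / (u1 * u2 * (a * u1 + b * u2)) := by
        field_simp
        ring
      have : 0 ≤ a * b * (w1 * u2 - w2 * u1) ^ 2 / (u1 * u2 * (a * u1 + b * u2)) := by positivity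
      linarith
    rw [integral_const_mul, integral_add (i1.const_mul _) (i2.const_mul _), integral_const_mul,
      integral_const_mul] at h4
    have h5 := mul_le_mul_of_nonneg_left g1.le (by positivity : 0 ≤ a * w1 ^ 2)
    have h6 := mul_le_mul_of_nonneg_left g2.le (by positivity : 0 ≤ b * w2 ^ 2)
    have e1 : a * w1 ^ 2 * w1⁻¹ = a * w1 := by field_simp
    have e2 : b * w2 ^ 2 * w2⁻¹ = b * w2 := by field_simp
    have e3 : (a * w1 + b * w2) ^ 2 * (a * w1 + b * w2)⁻¹ = a * w1 + b * w2 := by field_simp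
    refine le_of_mul_le_mul_left ?_ (pow_pos hw 2)
    linarith
  have e : a * x1 + b * x2 = a * stieltjesInv μ w1⁻¹ + b * stieltjesInv μ w2⁻¹ + ε := by
    rw [hx1, hx2]
    linear_combination ε * hab
  linarith

theorem mono_beta {L u β β' : ℝ} (hL : 0 < L) (hu : L ≤ u) (hβ' : 0 < β') (h : β' ≤ β) :
    β' * (rTransform μ (β' * u) - rTransform μ (β' * L)) ≤
      β * (rTransform μ (β * u) - rTransform μ (β * L)) := by
  rcases hu.eq_or_lt with rfl | hu
  · simp
  have hβ : 0 < β := hβ'.trans_le h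
  have hu0 : 0 < u := hL.trans hu
  have hc := K_convex hμ
  have o1 : (β * u)⁻¹ < (β * L)⁻¹ := inv_strictAnti₀ (by positivity) (by nlinarith)
  have o2 : (β' * u)⁻¹ < (β' * L)⁻¹ := inv_strictAnti₀ (by positivity) (by nlinarith)
  have o3 : (β * L)⁻¹ ≤ (β' * L)⁻¹ := inv_anti₀ (by positivity) (by nlinarith)
  have o4 : (β * u)⁻¹ ≤ (β' * u)⁻¹ := inv_anti₀ (by positivity) (by nlinarith)
  have m1 : (β * u)⁻¹ ∈ Ioi (0 : ℝ) := by simp only [mem_Ioi]; positivity
  have m2 : (β * L)⁻¹ ∈ Ioi (0 : ℝ) := by simp only [mem_Ioi]; positivity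
  have m3 : (β' * u)⁻¹ ∈ Ioi (0 : ℝ) := by simp only [mem_Ioi]; positivity
  have m4 : (β' * L)⁻¹ ∈ Ioi (0 : ℝ) := by simp only [mem_Ioi]; positivity
  have s1 := hc.secant_mono m1 m2 m4 o1.ne' (o1.trans_le o3).ne' o3
  have s2 := hc.secant_mono m4 m1 m3 (o1.trans_le o3).ne o2.ne o4
  simp only [inv_inv] at s1 s2
  rw [← neg_div_neg_eq, neg_sub, neg_sub] at s2
  have s3 := s1.trans s2
  have hd : 0 < L⁻¹ - u⁻¹ := sub_pos.2 (inv_strictAnti₀ hL hu)
  have e1 : (β * L)⁻¹ - (β * u)⁻¹ = (L⁻¹ - u⁻¹) / β := by field_simp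
  have e2 : (β' * u)⁻¹ - (β' * L)⁻¹ = -(L⁻¹ - u⁻¹) / β' := by field_simp; ring
  rw [e1, e2, div_div_eq_mul_div, div_div_eq_mul_div, div_neg, ← neg_div,
    div_le_div_iff_of_pos_right hd] at s3
  have e3 : β * (1 / (β * u)) = β' * (1 / (β' * u)) := by field_simp
  have e4 : β * (1 / (β * L)) = β' * (1 / (β' * L)) := by field_simp
  unfold rTransform
  linarith

theorem G_lip {z w : ℝ} (hz : sSup μ.support < z) (h : z ≤ w) :
    ∫ t, (z - t)⁻¹ ∂μ ≤ ∫ t, (w - t)⁻¹ ∂μ + (w - z) / (z - sSup μ.support) ^ 2 := by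
  have i2 := F.rt_int_inv hμ (hz.trans_le h)
  have h1 : ∫ t, (z - t)⁻¹ ∂μ ≤ ∫ t, ((w - t)⁻¹ + (w - z) / (z - sSup μ.support) ^ 2) ∂μ := by
    refine integral_mono_ae (F.rt_int_inv hμ hz) (i2.add (integrable_const _)) ?_
    filter_upwards [F.rt2_ae_le hμ] with t ht
    have p1 : 0 < z - t := by linarith
    have p2 : 0 < w - t := by linarith
    have p3 : 0 < z - sSup μ.support := by linarith
    have e : (z - t)⁻¹ - (w - t)⁻¹ = (w - z) / ((z - t) * (w - t)) := by
      field_simp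
      ring
    have h2 : (w - z) / ((z - t) * (w - t)) ≤ (w - z) / (z - sSup μ.support) ^ 2 :=
      div_le_div_of_nonneg_left (by linarith) (by positivity) (by nlinarith)
    linarith
  rw [integral_add i2 (integrable_const _)] at h1
  simpa using h1

theorem G_K {y : ℝ} (hy : 0 < y) (h : sSup μ.support < stieltjesInv μ y) :
    ∫ t, (stieltjesInv μ y - t)⁻¹ ∂μ = y := by
  obtain ⟨d, hd⟩ : ∃ d, d = (stieltjesInv μ y - sSup μ.support) / 2 := ⟨_, rfl⟩
  have hd0 : 0 < d := by linarith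
  refine le_antisymm (le_of_forall_pos_le_add fun ε hε => ?_)
    (le_of_forall_pos_le_add fun ε hε => ?_)
  · have hp : 0 < ε * (2 * d) ^ 2 := by positivity
    have h1 := G_lip hμ h (w := stieltjesInv μ y + ε * (2 * d) ^ 2) (by linarith)
    have h2 := F.rt_lt_of_stInv_lt hμ hy (z := stieltjesInv μ y + ε * (2 * d) ^ 2)
      (by change stieltjesInv μ _ < _; linarith)
    rw [add_sub_cancel_left, show stieltjesInv μ y - sSup μ.support = 2 * d by linarith,
      mul_div_cancel_right₀ _ (by positivity)] at h1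
    linarith
  · obtain ⟨e, he⟩ : ∃ e, e = min d (ε * d ^ 2) := ⟨_, rfl⟩
    have e0 : 0 < e := by rw [he]; positivity
    have e1 : e ≤ d := he ▸ min_le_left _ _
    have e2 : e ≤ ε * d ^ 2 := he ▸ min_le_right _ _
    have h0 : sSup μ.support < stieltjesInv μ y - e := by linarith
    have h1 := G_lip hμ h0 (w := stieltjesInv μ y) (by linarith)
    have h2 := F.rt_lt_of_lt_stInv (y := y) h0 (by change _ < stieltjesInv μ _; linarith)
    have h3 : (stieltjesInv μ y - (stieltjesInv μ y - e)) /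
        (stieltjesInv μ y - e - sSup μ.support) ^ 2 ≤ ε := by
      rw [sub_sub_cancel, div_le_iff₀ (pow_pos (by linarith) 2)]
      have : d ^ 2 ≤ (stieltjesInv μ y - e - sSup μ.support) ^ 2 :=
        pow_le_pow_left₀ hd0.le (by linarith) 2
      nlinarith
    linarith

theorem dev_le {y : ℝ} (hy : 0 < y) (h : (sSup μ.support - sInf μ.support) * y ≤ 1 / 2) :
    sSup μ.support < stieltjesInv μ y ∧ ∀ t, sInf μ.support ≤ t → t ≤ sSup μ.support →
      |(stieltjesInv μ y - t)⁻¹ - y| ≤ 2 * (sSup μ.support - sInf μ.support) * y ^ 2 := by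
  have h1 : sInf μ.support ≤ stieltjesInv μ y - 1 / y := F.le_Rt hμ hy
  have h2 : stieltjesInv μ y - 1 / y ≤ sSup μ.support := F.Rt_le hμ hy
  have h3 := F.rt2_inf_le_sup hμ
  generalize stieltjesInv μ y = x at *
  generalize sSup μ.support = b at *
  generalize sInf μ.support = a at *
  have h4 : b - a ≤ 1 / y / 2 := by
    rw [div_div, le_div_iff₀ (by positivity)]
    linarith
  have h5 : 0 < 1 / y := by positivity
  refine ⟨by linarith, fun t ha hb => ?_⟩
  have p1 : 0 < x - t := by linarith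
  have e : (x - t)⁻¹ - y = (1 / y - (x - t)) * (y * (x - t)⁻¹) := by field_simp
  have h6 : (x - t)⁻¹ ≤ 2 * y := by
    rw [inv_le_comm₀ p1 (by positivity)]
    have : (2 * y)⁻¹ = 1 / y / 2 := by field_simp
    linarith
  have h7 : |1 / y - (x - t)| ≤ b - a := abs_le.2 ⟨by linarith, by linarith⟩
  rw [e, abs_mul, abs_of_pos (by positivity : 0 < y * (x - t)⁻¹)]
  calc |1 / y - (x - t)| * (y * (x - t)⁻¹) ≤ (b - a) * (y * (2 * y)) :=
        mul_le_mul h7 (mul_le_mul_of_nonneg_left h6 hy.le) (by positivity) (by linarith)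
    _ = _ := by ring

theorem R_lip_small {y y' : ℝ} (hy : 0 < y) (hyy : y ≤ y')
    (h : (sSup μ.support - sInf μ.support) * y' ≤ 1 / 2) :
    rTransform μ y' - rTransform μ y ≤ 4 * (sSup μ.support - sInf μ.support) ^ 2 * (y' - y) := by
  have hy' : 0 < y' := hy.trans_le hyy
  have h3 := F.rt2_inf_le_sup hμ
  obtain ⟨b1, d1⟩ := dev_le hμ hy (by nlinarith)
  obtain ⟨b2, d2⟩ := dev_le hμ hy' h
  have g1 := G_K hμ hy b1
  have g2 := G_K hμ hy' b2
  have hx : stieltjesInv μ y' ≤ stieltjesInv μ y := F.stInv_anti hμ hy hyy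
  have i1 := F.rt_int_inv hμ b1
  have i2 := F.rt_int_inv hμ b2
  unfold rTransform
  generalize stieltjesInv μ y = x at *
  generalize stieltjesInv μ y' = x' at *
  obtain ⟨c, hc⟩ : ∃ c, c = 4 * (sSup μ.support - sInf μ.support) ^ 2 := ⟨_, rfl⟩
  have hc0 : 0 ≤ c := by rw [hc]; positivity
  have a1 : Integrable (fun t => (x - x') * y' * (x - t)⁻¹ +
      (x - x') * (c * (y * y') ^ 2 - y * y')) μ := (i1.const_mul _).add (integrable_const _)
  have h4 : ∫ t, ((x' - t)⁻¹ - (x - t)⁻¹) ∂μ ≤ ∫ t, ((x - x') * y * (x' - t)⁻¹ +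
      ((x - x') * y' * (x - t)⁻¹ + (x - x') * (c * (y * y') ^ 2 - y * y'))) ∂μ := by
    refine integral_mono_ae (i2.sub i1) ((i2.const_mul _).add a1) ?_
    filter_upwards [F.rt2_ae_le hμ, F.rt2_ae_ge hμ] with t hb ha
    have p1 : 0 < x - t := by linarith
    have p2 : 0 < x' - t := by linarith
    have e : (x' - t)⁻¹ - (x - t)⁻¹ = (x - x') * ((x - t)⁻¹ * (x' - t)⁻¹) := by
      field_simp
      ring
    have h5 : ((x - t)⁻¹ - y) * ((x' - t)⁻¹ - y') ≤ c * (y * y') ^ 2 := by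
      refine (le_abs_self _).trans ?_
      rw [abs_mul]
      refine (mul_le_mul (d1 t ha hb) (d2 t ha hb) (abs_nonneg _)
        ((abs_nonneg _).trans (d1 t ha hb))).trans_eq ?_
      rw [hc]
      ring
    have h6 := mul_le_mul_of_nonneg_left h5 (sub_nonneg.2 hx)
    rw [e]
    linarith
  rw [integral_sub i2 i1, integral_add (i2.const_mul _) a1,
    integral_add (i1.const_mul _) (integrable_const _), integral_const_mul, integral_const_mul,
    g1, g2] at h4
  simp only [integral_const, probReal_univ, smul_eq_mul, one_mul] at h4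
  rw [← hc]
  obtain ⟨P, hP⟩ : ∃ P, P = y * y' := ⟨_, rfl⟩
  have hP0 : 0 < P := by rw [hP]; positivity
  have e : 1 / y - 1 / y' = (y' - y) / P := by rw [hP]; field_simp
  have h5 : y' - y ≤ (x - x') * P * (1 + c * P) := by rw [hP]; linarith
  have h6 : (y' - y) / P ≤ (x - x') + c * (y' - y) := by
    rw [div_le_iff₀ hP0]
    have h7 : 0 < 1 + c * P := by positivity
    refine le_of_mul_le_mul_right ?_ h7
    have h8 : 0 ≤ (y' - y) * (c * P) ^ 2 := mul_nonneg (by linarith) (sq_nonneg _)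
    have h9 : 0 ≤ (y' - y) * (c * P) := mul_nonneg (by linarith) (by positivity)
    nlinarith
  linarith

theorem R_gap {y0 y : ℝ} (h0 : 0 < y0) (h : y0 ≤ y) :
    (sSup μ.support - rTransform μ y0) * y0 ≤ (sSup μ.support - rTransform μ y) * y := by
  have hy : 0 < y := h0.trans_le h
  obtain ⟨θ, hθ⟩ : ∃ θ, θ = y0 / y := ⟨_, rfl⟩
  have t0 : 0 < θ := by rw [hθ]; positivity
  have t1 : θ ≤ 1 := by rw [hθ]; exact (div_le_one hy).2 h
  have t2 : θ * y = y0 := by rw [hθ]; field_simp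
  have b0 : sSup μ.support ≤ stieltjesInv μ y0 := F.le_stInv hμ h0
  have key : stieltjesInv μ y ≤ sSup μ.support + θ * (stieltjesInv μ y0 - sSup μ.support) := by
    refine le_of_forall_pos_le_add fun ε hε => ?_
    have c1 : sSup μ.support < stieltjesInv μ y0 + ε := by linarith
    have g1 := F.rt_lt_of_stInv_lt hμ h0 (z := stieltjesInv μ y0 + ε)
      (by change stieltjesInv μ _ < _; linarith)
    have c2 : sSup μ.support <
        sSup μ.support + θ * (stieltjesInv μ y0 + ε - sSup μ.support) := by nlinarith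
    have h3 : stieltjesInv μ y ≤
        sSup μ.support + θ * (stieltjesInv μ y0 + ε - sSup μ.support) := by
      refine F.rt_stInv_le c2 ?_
      have h4 : ∫ t, θ * (sSup μ.support + θ * (stieltjesInv μ y0 + ε - sSup μ.support) - t)⁻¹ ∂μ ≤
          ∫ t, (stieltjesInv μ y0 + ε - t)⁻¹ ∂μ := by
        refine integral_mono_ae ((F.rt_int_inv hμ c2).const_mul _) (F.rt_int_inv hμ c1) ?_
        filter_upwards [F.rt2_ae_le hμ] with t ht
        rw [← div_eq_mul_inv, inv_eq_one_div, div_le_div_iff₀ (by linarith) (by linarith)]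
        nlinarith
      rw [integral_const_mul] at h4
      refine le_of_mul_le_mul_left ?_ t0
      linarith
    nlinarith
  have e1 : 1 / y0 * y0 = 1 := by field_simp
  have e2 : 1 / y * y = 1 := by field_simp
  have h5 := mul_le_mul_of_nonneg_right key hy.le
  unfold rTransform
  nlinarith

theorem R_lt (h : sInf μ.support < sSup μ.support) : ∃ y > 0, rTransform μ y < sSup μ.support := by
  have hz : sSup μ.support < sSup μ.support + 1 := lt_add_one _
  have i1 := F.rt_int_inv hμ hz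
  have h0 := F.rt2_pos hμ hz
  refine ⟨_, h0, ?_⟩
  have h1 : stieltjesInv μ (∫ x, (sSup μ.support + 1 - x)⁻¹ ∂μ) = sSup μ.support + 1 :=
    F.stInv_eq hμ hz rfl
  have h2 : 0 < ∫ x, (1 - (sSup μ.support + 1 - x)⁻¹) ∂μ := by
    have i2 : Integrable (fun x => 1 - (sSup μ.support + 1 - x)⁻¹) μ := (integrable_const _).sub i1
    rw [integral_pos_iff_support_of_nonneg_ae _ i2]
    · have h3 := (Measure.mem_support_iff_forall _).1 (hμ.sInf_mem F.rt2_ne) _ (Iio_mem_nhds h)
      refine h3.trans_le (measure_mono fun x hx => ?_)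
      have : (sSup μ.support + 1 - x)⁻¹ < 1 := inv_lt_one_of_one_lt₀ (by
        have : x < sSup μ.support := hx
        linarith)
      exact (sub_pos.2 this).ne'
    · filter_upwards [F.rt2_ae_le hμ] with x hx
      exact sub_nonneg.2 (inv_le_one_of_one_le₀ (by linarith))
  rw [integral_sub (integrable_const _) i1] at h2
  simp only [integral_const, probReal_univ, smul_eq_mul, one_mul] at h2
  have h4 := one_lt_one_div h0 (by linarith)
  rw [rTransform, h1]
  linarith

theorem K_edge {y : ℝ} (hy : 0 < y)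
    (h : ∫⁻ t, (ENNReal.ofReal (sSup μ.support - t))⁻¹ ∂μ ≤ ENNReal.ofReal y) :
    stieltjesInv μ y = sSup μ.support := by
  refine stieltjesInv_beyond μ fun z hz => ?_
  rw [← ENNReal.ofReal_le_ofReal_iff hy.le, stieltjes,
    ofReal_integral_eq_lintegral_ofReal (F.rt_int_inv hμ hz)
      ((F.rt2_ae_le hμ).mono fun t ht => inv_nonneg.2 (by linarith))]
  refine le_trans (lintegral_mono_ae ?_) h
  filter_upwards [F.rt2_ae_le hμ] with t ht
  rw [ENNReal.ofReal_inv_of_pos (by linarith)]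
  exact ENNReal.inv_le_inv.2 (ENNReal.ofReal_le_ofReal (by linarith))

end Vale.Agent.N166X
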