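import Vale.Agent.N166X.Bridge

/-! P166: the semicircle law. -/

namespace Vale.Agent.N166X

open MeasureTheory Filter Topology Set

/-- The semicircle law on `[-2, 2]`. -/
noncomputable def sc : Measure ℝ :=
  volume.withDensity fun t => ENNReal.ofReal (√(4 - t ^ 2) / (2 * Real.pi))

theorem sc_sub {g : ℝ → ℝ} (hg : ContinuousOn g (Icc (-2) 2)) :
    ∫ t, √(4 - t ^ 2) * g t = ∫ θ in (0 : ℝ)..Real.pi, 4 * Real.sin θ ^ 2 * g (2 * Real.cos θ) := by
  rw [← intervalIntegral.integral_eq_integral_of_support_subset (a := -2) (b := 2) fun t ht => by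
    have h1 : 0 < 4 - t ^ 2 := by
      by_contra h
      exact ht (by simp [Real.sqrt_eq_zero_of_nonpos (not_lt.1 h)])
    exact ⟨by nlinarith, by nlinarith⟩]
  have h := intervalIntegral.integral_comp_mul_deriv' (a := Real.pi) (b := 0)
    (f := fun θ => 2 * Real.cos θ) (f' := fun θ => 2 * -Real.sin θ)
    (g := fun t => √(4 - t ^ 2) * g t) (fun θ _ => (Real.hasDerivAt_cos θ).const_mul 2)
    (by fun_prop) ((ContinuousOn.mul (by fun_prop) hg).mono (by
      rintro _ ⟨θ, -, rfl⟩
      exact ⟨by linarith [Real.neg_one_le_cos θ], by linarith [Real.cos_le_one θ]⟩))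
  simp only [Real.cos_pi, Real.cos_zero, mul_neg, mul_one] at h
  rw [← h, intervalIntegral.integral_symm, ← intervalIntegral.integral_neg]
  refine intervalIntegral.integral_congr fun θ hθ => ?_
  rw [uIcc_of_le Real.pi_pos.le] at hθ
  have h1 : 4 - (2 * Real.cos θ) ^ 2 = (2 * Real.sin θ) ^ 2 := by
    nlinarith [Real.sin_sq_add_cos_sq θ]
  have h2 := Real.sin_nonneg_of_nonneg_of_le_pi hθ.1 hθ.2
  simp only [Function.comp_apply]
  rw [h1, Real.sqrt_sq (by positivity)]
  ring

theorem sc_G0 {y : ℝ} (h0 : 0 < y) (h1 : y < 1) :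
    ∫ t, √(4 - t ^ 2) * (y + 1 / y - t)⁻¹ = 2 * Real.pi * y := by
  have hx : 2 < y + 1 / y := by
    have : y + 1 / y - 2 = (1 - y) ^ 2 / y := by field_simp; ring
    have : 0 < (1 - y) ^ 2 / y := div_pos (pow_pos (by linarith) 2) h0
    linarith
  rw [sc_sub (g := fun t => (y + 1 / y - t)⁻¹)
    (ContinuousOn.inv₀ (by fun_prop) fun t ht => by linarith [ht.2])]
  have hc : ∀ θ, 0 < 1 - y * Real.cos θ := fun θ => by nlinarith [Real.cos_le_one θ]
  have hD : ∀ θ, 0 < y + 1 / y - 2 * Real.cos θ := fun θ => by linarith [Real.cos_le_one θ]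
  rw [intervalIntegral.integral_eq_sub_of_hasDerivAt (f := fun θ => 2 * y * θ - 2 * (1 - y ^ 2) / y *
    Real.arctan (y * Real.sin θ / (1 - y * Real.cos θ)) + 2 * Real.sin θ)]
  · simp
    ring
  · intro θ _
    have d1 := (((Real.hasDerivAt_sin θ).const_mul y).div
      (((Real.hasDerivAt_cos θ).const_mul y).const_sub 1) (hc θ).ne').arctan
    refine ((((hasDerivAt_id θ).const_mul (2 * y)).sub (d1.const_mul (2 * (1 - y ^ 2) / y))).add
      ((Real.hasDerivAt_sin θ).const_mul 2)).congr_deriv ?_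
    have e := Real.sin_sq_add_cos_sq θ
    have h2 := (hc θ).ne'
    have h3 := hD θ
    simp only [Pi.div_apply]
    generalize Real.sin θ = s at *
    generalize Real.cos θ = c at *
    have h4 : 0 < 1 - 2 * y * c + y ^ 2 := by
      have : 1 - 2 * y * c + y ^ 2 = y * (y + 1 / y - 2 * c) := by field_simp; ring
      rw [this]
      positivity
    have e1 : (y + 1 / y - 2 * c)⁻¹ = y / (1 - 2 * y * c + y ^ 2) := by
      rw [inv_eq_one_div, div_eq_div_iff h3.ne' h4.ne']
      field_simp
      ring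
    have e2 : 1 + (y * s / (1 - y * c)) ^ 2 = (1 - 2 * y * c + y ^ 2) / (1 - y * c) ^ 2 := by
      field_simp
      linear_combination y ^ 2 * e
    have e3 : y * c * (1 - y * c) - y * s * -(y * -s) = y * c - y ^ 2 := by
      linear_combination (-y ^ 2) * e
    have e4 : s ^ 2 = 1 - c ^ 2 := by linarith
    rw [e1, e2, e3, e4]
    field_simp
    ring
  · exact Continuous.intervalIntegrable (Continuous.mul (by fun_prop)
      (Continuous.inv₀ (by fun_prop) fun θ => (hD θ).ne')) _ _

theorem sc_meas : Measurable fun t : ℝ => ENNReal.ofReal (√(4 - t ^ 2) / (2 * Real.pi)) := by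
  fun_prop

theorem sc_int (g : ℝ → ℝ) : ∫ t, g t ∂sc = (2 * Real.pi)⁻¹ * ∫ t, √(4 - t ^ 2) * g t := by
  rw [sc, integral_withDensity_eq_integral_toReal_smul sc_meas (ae_of_all _ fun _ => by simp),
    ← integral_const_mul]
  refine integral_congr_ae (ae_of_all _ fun t => ?_)
  simp only [smul_eq_mul]
  rw [ENNReal.toReal_ofReal (by positivity)]
  ring

theorem sc_prob : IsProbabilityMeasure sc := by
  have h := sc_int fun _ => 1
  rw [sc_sub continuousOn_const] at h
  simp only [mul_one, intervalIntegral.integral_const_mul, integral_sin_sq, integral_const,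
    smul_eq_mul, Real.sin_pi, Real.sin_zero, zero_mul, sub_zero, zero_add] at h
  refine isProbabilityMeasure_iff_real.2 (h.trans ?_)
  field_simp
  norm_num

theorem sc_supp : sc.support = Icc (-2) 2 := by
  have hs : {t : ℝ | ENNReal.ofReal (√(4 - t ^ 2) / (2 * Real.pi)) ≠ 0} = Ioo (-2) 2 := by
    ext t
    simp only [mem_ofPred_eq, ne_eq, ENNReal.ofReal_eq_zero, not_le, mem_Ioo]
    rw [div_pos_iff_of_pos_right (by positivity), Real.sqrt_pos]
    exact ⟨fun h => ⟨by nlinarith, by nlinarith⟩, fun h => by nlinarith [h.1, h.2]⟩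
  refine Subset.antisymm (Measure.support_subset_of_isClosed isClosed_Icc ?_) fun t ht => ?_
  · rw [mem_ae_iff, sc, withDensity_apply_eq_zero sc_meas, hs,
      (disjoint_compl_right.mono_left Ioo_subset_Icc_self).inter_eq, measure_empty]
  · rw [Measure.mem_support_iff_forall]
    intro U hU
    rw [pos_iff_ne_zero, sc, Ne, withDensity_apply_eq_zero sc_meas, hs]
    obtain ⟨V, hV, hVo, htV⟩ := mem_nhds_iff.1 hU
    rw [← closure_Ioo (by norm_num)] at ht
    have h1 := (isOpen_Ioo.inter hVo).measure_pos volume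
      (by rw [inter_comm]; exact mem_closure_iff.1 ht V hVo htV)
    exact (h1.trans_le (measure_mono (inter_subset_inter_right _ hV))).ne'

theorem sc_G {y : ℝ} (h0 : 0 < y) (h1 : y < 1) : G sc (y + 1 / y) = y := by
  rw [G, sc_int, sc_G0 h0 h1]
  field_simp

end Vale.Agent.N166X
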