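import Vale.Agent.N166.Main

/-! P166, phase transition: the overlaps are at most `r`, and a lower bound for the spin part. -/

namespace Vale.Agent.N166X

open MeasureTheory ProbabilityTheory Filter Topology Set Vale.Agent.P157.Par

section step

variable {F M D : ℝ → ℝ}

theorem ec_lip (h : Ec F M D) (x y : ℝ) : |M x - M y| ≤ |x - y| := by
  have := convex_univ.norm_image_sub_le_of_norm_hasDerivWithin_le (f := M) (f' := D)
    (s := Set.univ) (fun x _ => (h.d2 x).hasDerivWithinAt) (fun x _ => h.sm.bD x)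
    (mem_univ y) (mem_univ x)
  simpa only [Real.norm_eq_abs, one_mul] using this

theorem ec_sq (h : Ec F M D) (x y : ℝ) : (M x - M y) ^ 2 ≤ (M x - M y) * (x - y) := by
  have h1 := ec_lip h x y
  rcases le_total x y with hxy | hxy
  · have h2 := h.mono hxy
    rw [abs_of_nonpos (by linarith), abs_of_nonpos (by linarith)] at h1
    nlinarith
  · have h2 := h.mono hxy
    rw [abs_of_nonneg (by linarith), abs_of_nonneg (by linarith)] at h1
    nlinarith

theorem int_zw (h : Ec F M D) {g : ℝ → ℝ} (hg : Continuous g) (hK : ∀ x, |g x| ≤ 1) {m : ℝ}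
    (hm : 0 < m) (hm1 : m ≤ 1) (s x : ℝ) :
    Integrable (fun z => z * (g (x + s * z) * Real.exp (m * F (x + s * z)))) (gaussianReal 0 1) := by
  have hF := h.sm.cont
  refine ((integrable_exp_abs (|s| + 1)).const_mul (Real.exp |F x|)).mono'
    (by fun_prop : Continuous fun z => z * (g (x + s * z) *
      Real.exp (m * F (x + s * z)))).aestronglyMeasurable (ae_of_all _ fun z => ?_)
  have h1 := Lip1.abs_le zero_le_one h.sm.lip x s z
  have h2 : m * F (x + s * z) ≤ |F x| + |s| * |z| := by
    have := le_abs_self (F (x + s * z))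
    have := abs_nonneg (F (x + s * z))
    nlinarith
  have h3 : |z| ≤ Real.exp |z| := by linarith [Real.add_one_le_exp |z|]
  rw [Real.norm_eq_abs, abs_mul, abs_mul, abs_of_pos (Real.exp_pos _)]
  calc |z| * (|g (x + s * z)| * Real.exp (m * F (x + s * z)))
      ≤ Real.exp |z| * (1 * Real.exp (|F x| + |s| * |z|)) :=
        mul_le_mul h3 (mul_le_mul (hK _) (Real.exp_le_exp.2 h2) (Real.exp_pos _).le zero_le_one)
          (by positivity) (Real.exp_pos _).le
    _ = _ := by
        rw [one_mul, ← Real.exp_add, ← Real.exp_add]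
        congr 1
        ring

/-- The variance of `M` under one step of the tilted chain is at most `v`. -/
theorem var_step (h : Ec F M D) {m : ℝ} (hm : 0 < m) (hm1 : m ≤ 1) {v : ℝ} (hv : 0 ≤ v) (x : ℝ) :
    tlt m v F (fun y => M y ^ 2) x ≤ tlt m v F M x ^ 2 + v := by
  have hS := h.sm
  have hM := hS.cont1
  have hD := h.cD
  have hs2 : √v * √v = v := Real.mul_self_sqrt hv
  have hy : ∀ z : ℝ, HasDerivAt (fun z => x + √v * z) (√v) z := fun z => by
    simpa using ((hasDerivAt_id z).const_mul (√v)).const_add x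
  have hw : ∀ z : ℝ, HasDerivAt (fun z => Real.exp (m * F (x + √v * z)))
      (m * √v * (M (x + √v * z) * Real.exp (m * F (x + √v * z)))) z := fun z => by
    have := (((h.d1 (x + √v * z)).comp z (hy z)).const_mul m).exp
    refine this.congr_deriv ?_
    simp only [Function.comp_apply]
    ring
  have hM2 : ∀ y, |M y ^ 2| ≤ 1 := fun y => by
    rw [abs_pow]
    exact pow_le_one₀ (abs_nonneg _) (h.abs_M y)
  have i0 := hS.integrable_exp m v x
  have i1 := hS.integrable hM hS.bM m v x
  have i2 := hS.integrable (g := fun y => M y ^ 2) (hM.pow 2) hM2 m v x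
  have iD := hS.integrable hD hS.bD m v x
  have iz := int_zw h (g := fun _ => 1) continuous_const (fun _ => by simp) hm hm1 (√v) x
  have izM := int_zw h hM hS.bM hm hm1 (√v) x
  simp only [one_mul] at iz
  have s1 := stein_one_int _ _ hw i0 iz (i1.const_mul _)
  have s2 := stein_one_int (fun z => M (x + √v * z) * Real.exp (m * F (x + √v * z)))
    (fun z => √v * (D (x + √v * z) * Real.exp (m * F (x + √v * z))) +
      m * √v * (M (x + √v * z) ^ 2 * Real.exp (m * F (x + √v * z))))
    (fun z => by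
      have := ((h.d2 (x + √v * z)).comp z (hy z)).mul (hw z)
      refine this.congr_deriv ?_
      simp only [Function.comp_apply]
      ring) i1 izM ((iD.const_mul _).add (i2.const_mul _))
  rw [integral_const_mul] at s1
  rw [integral_add (iD.const_mul _) (i2.const_mul _), integral_const_mul, integral_const_mul] at s2
  have hZ := hS.int_exp_pos m v x
  have hle : ∫ z, D (x + √v * z) * Real.exp (m * F (x + √v * z)) ∂(gaussianReal 0 1) +
      m * ∫ z, M (x + √v * z) ^ 2 * Real.exp (m * F (x + √v * z)) ∂(gaussianReal 0 1) ≤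
      ∫ z, Real.exp (m * F (x + √v * z)) ∂(gaussianReal 0 1) := by
    rw [← integral_const_mul, ← integral_add iD (i2.const_mul _)]
    refine integral_mono (iD.add (i2.const_mul _)) i0 fun z => ?_
    have h1 := h.D1 (x + √v * z)
    have h2 := Real.exp_pos (m * F (x + √v * z))
    have h3 := mul_nonneg (sub_nonneg.2 hm1) (sq_nonneg (M (x + √v * z)))
    dsimp only
    nlinarith
  unfold tlt
  generalize hZ' : ∫ z, Real.exp (m * F (x + √v * z)) ∂(gaussianReal 0 1) = Z at *
  generalize hI1 : ∫ z, M (x + √v * z) * Real.exp (m * F (x + √v * z)) ∂(gaussianReal 0 1) = I1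
    at *
  generalize hI2 : ∫ z, M (x + √v * z) ^ 2 * Real.exp (m * F (x + √v * z)) ∂(gaussianReal 0 1)
    = I2 at *
  generalize hID : ∫ z, D (x + √v * z) * Real.exp (m * F (x + √v * z)) ∂(gaussianReal 0 1) = ID
    at *
  obtain ⟨z0, hz0⟩ : ∃ z0, z0 = m * √v * I1 / Z := ⟨_, rfl⟩
  obtain ⟨c, hc⟩ : ∃ c, c = M (x + √v * z0) := ⟨_, rfl⟩
  have key : ∫ z, (M (x + √v * z) ^ 2 * Real.exp (m * F (x + √v * z)) +
        ((-(2 * c) + √v * z0) * (M (x + √v * z) * Real.exp (m * F (x + √v * z))) +
        (c ^ 2 - √v * c * z0) * Real.exp (m * F (x + √v * z)))) ∂(gaussianReal 0 1) ≤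
      ∫ z, (√v * (z * (M (x + √v * z) * Real.exp (m * F (x + √v * z)))) +
        (-(√v * c)) * (z * Real.exp (m * F (x + √v * z)))) ∂(gaussianReal 0 1) := by
    refine integral_mono (i2.add ((i1.const_mul _).add (i0.const_mul _)))
      ((izM.const_mul _).add (iz.const_mul _)) fun z => ?_
    have h1 := ec_sq h (x + √v * z) (x + √v * z0)
    rw [← hc] at h1
    have h2 := mul_le_mul_of_nonneg_right h1 (Real.exp_pos (m * F (x + √v * z))).le
    dsimp only
    linarith
  have a1 : Integrable (fun z => (-(2 * c) + √v * z0) *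
      (M (x + √v * z) * Real.exp (m * F (x + √v * z))) +
      (c ^ 2 - √v * c * z0) * Real.exp (m * F (x + √v * z))) (gaussianReal 0 1) :=
    (i1.const_mul _).add (i0.const_mul _)
  rw [integral_add i2 a1,
    integral_add (i1.const_mul _) (i0.const_mul _),
    integral_add (izM.const_mul _) (iz.const_mul _), integral_const_mul, integral_const_mul,
    integral_const_mul, integral_const_mul, s1, s2, hZ', hI1, hI2] at key
  have hzZ : z0 * Z = m * √v * I1 := by rw [hz0]; field_simp
  have h1 : I2 - 2 * c * I1 + c ^ 2 * Z ≤ v * Z := by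
    have h2 : 0 ≤ √v * z0 * I1 := by
      rw [hz0]
      have : √v * (m * √v * I1 / Z) * I1 = m * (√v * √v) * I1 ^ 2 / Z := by ring
      rw [this]
      positivity
    have h3 : √v * (√v * ID + m * √v * I2) = v * (ID + m * I2) := by
      rw [← hs2]; rw [Real.sqrt_mul_self (Real.sqrt_nonneg v)]; ring
    have h4 := mul_le_mul_of_nonneg_left hle hv
    have h5 : √v * c * z0 * Z = √v * c * (m * √v * I1) := by rw [← hzZ]; ring
    nlinarith
  rw [div_pow, div_add' _ _ _ (by positivity), div_le_div_iff₀ hZ (by positivity)]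
  nlinarith [mul_le_mul_of_nonneg_right h1 (sq_nonneg Z),
    mul_nonneg hZ.le (sq_nonneg (I1 - c * Z))]

end step

theorem chn_sq_le (m r : ℕ → ℝ) (h0 : 0 ≤ r 0) : ∀ (l : ℕ), Sp7Exp m l →
    (∀ i < l, r i ≤ r (i + 1)) → ∀ {F M D : ℝ → ℝ}, Ec F M D →
    chn m r l F (fun x => M x ^ 2) ≤ r l := by
  intro l
  induction l with
  | zero =>
    intro _ _ F M D h
    rw [chn_zero_def]
    have h2 : Integrable (fun z : ℝ => z ^ 2) (gaussianReal 0 1) :=
      (memLp_id_gaussianReal 2).integrable_sq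
    have h3 : ∫ z, z ^ 2 ∂(gaussianReal 0 1) = 1 := by
      have h := variance_fun_id_gaussianReal (μ := 0) (v := 1)
      rw [variance_of_integral_eq_zero (by fun_prop) (by simp [integral_id_gaussianReal])] at h
      simpa using h
    have hM0 : M 0 = 0 := by
      have := h.odd 0
      rw [neg_zero] at this
      linarith
    calc ∫ z, M (√(r 0) * z) ^ 2 ∂(gaussianReal 0 1) ≤ ∫ z, r 0 * z ^ 2 ∂(gaussianReal 0 1) := by
          refine integral_mono (sp7_cb_int (sp7_cb_sq (sp7_cb_M h)) _) (h2.const_mul _) fun z => ?_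
          have h4 := ec_lip h (√(r 0) * z) 0
          rw [hM0, sub_zero, sub_zero] at h4
          have h5 := sq_le_sq.2 h4
          rw [mul_pow, Real.sq_sqrt h0] at h5
          exact h5
      _ = r 0 := by rw [integral_const_mul, h3, mul_one]
  | succ l ih =>
    intro hE hr F M D h
    obtain ⟨hm0, hm1⟩ := hE l (Nat.lt_succ_self l)
    have hv : 0 ≤ r (l + 1) - r l := sub_nonneg.2 (hr l (Nat.lt_succ_self l))
    have hst := h.step hm0 hm1 (r (l + 1) - r l)
    have h1 := ih (sp7_exp_down hE) (fun i hi => hr i (by omega)) hst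
    rw [chn_succ_def]
    refine (sp7_chn_mono m r l (sp7_exp_down hE) hst
      (sp7_cb_tlt h (sp7_cb_sq (sp7_cb_M h)) _ _)
      (sp7_cb_add (sp7_cb_sq (sp7_cb_M hst)) (sp7_cb_const (r (l + 1) - r l)))
      fun x => var_step h hm0 hm1 hv x).trans ?_
    rw [sp7_chn_add m r l (sp7_exp_down hE) hst (sp7_cb_sq (sp7_cb_M hst)) (sp7_cb_const _),
      sp7_chn_const m r l (sp7_exp_down hE) hst]
    linarith

theorem Rc_le (m r : ℕ → ℝ) (h0 : 0 ≤ r 0) {j : ℕ} : ∀ (l : ℕ), j ≤ l → Sp7Exp m l →
    (∀ i < l, r i ≤ r (i + 1)) → ∀ {F M D : ℝ → ℝ}, Ec F M D → Rc m r l F M j ≤ r j := by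
  intro l
  induction l with
  | zero =>
    intro hj hE hr F M D h
    obtain rfl : j = 0 := by omega
    rw [Rc_self]
    exact chn_sq_le m r h0 0 hE hr h
  | succ l ih =>
    intro hj hE hr F M D h
    rcases Nat.lt_or_ge j (l + 1) with h1 | h1
    · obtain ⟨hm0, hm1⟩ := hE l (Nat.lt_succ_self l)
      rw [Rc_succ_le _ _ _ _ _ (by omega)]
      exact ih (by omega) (sp7_exp_down hE) (fun i hi => hr i (by omega)) (h.step hm0 hm1 _)
    · obtain rfl : j = l + 1 := le_antisymm hj h1
      rw [Rc_self]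
      exact chn_sq_le m r h0 _ hE hr h

theorem spR_le {k : ℕ} {m r : ℕ → ℝ} (hm : Exponents k m) (hr : Path k r) {j : ℕ} (hj : j ≤ k) :
    spR k m r j ≤ r j :=
  Rc_le m r hr.1 k hj (sp7_exp_of hm) hr.2 ec_logcosh

theorem spin_zero {k : ℕ} {m : ℕ → ℝ} (hm : Exponents k m) : spinPart k m (fun _ => 0) = 0 := by
  have h : ∀ l, Sp7Exp m l → ∀ F, cascade m (fun _ => 0) l F = F := by
    intro l
    induction l with
    | zero => intro _ F; rfl
    | succ l ih =>
      intro hE F
      rw [cascade_succ_def, sub_self, P157.Lv.gstep_zero (hE l (Nat.lt_succ_self l)).1.ne']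
      exact ih (sp7_exp_down hE) F
  simp [spinPart, h k (sp7_exp_of hm)]

/-- `Ψ(r) ≥ -¼ ∑ (m_{l+1} - m_l) r_l²`. -/
theorem spin_ge {k : ℕ} {m r : ℕ → ℝ} (hm : Exponents k m) (hr : SPath k r) :
    -(1 / 4 * ∑ l ∈ Finset.range (k + 1), (m (l + 1) - m l) * r l ^ 2) ≤ spinPart k m r := by
  have hS : ∀ s ∈ Set.Ico (0 : ℝ) 1, SPath k (fun l => r l + s * -r l) := by
    intro s hs
    have h1 : 0 < 1 - s := by linarith [hs.2]
    exact ⟨by nlinarith [hr.1], fun l hl => by nlinarith [hr.2 l hl]⟩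
  have e1 : (fun l => r l + 1 * -r l) = fun _ => 0 := by
    funext l
    ring
  have hP : Path k (fun l => r l + 1 * -r l) := by
    rw [e1]
    exact ⟨le_rfl, fun _ _ => le_rfl⟩
  obtain ⟨hc, hd, -⟩ := spin_deriv (η := fun l => -r l) hm one_pos hS hP
  obtain ⟨Q, hQ⟩ : ∃ Q, Q = ∑ l ∈ Finset.range (k + 1), (m (l + 1) - m l) * r l ^ 2 := ⟨_, rfl⟩
  have hq : ∀ s : ℝ, HasDerivAt (fun s : ℝ => Q * (1 - s) ^ 2 / 4) (-(Q * (1 - s) / 2)) s := by
    intro s
    have := (((hasDerivAt_id s).const_sub 1).pow 2).const_mul Q |>.div_const 4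
    refine this.congr_deriv ?_
    simp only [id]
    ring
  have hanti : AntitoneOn (fun s => spinPart k m (fun l => r l + s * -r l) + Q * (1 - s) ^ 2 / 4)
      (Set.Icc 0 1) := by
    refine antitoneOn_of_hasDerivWithinAt_nonpos (convex_Icc 0 1) (hc.add (by fun_prop))
      (fun s hs => ((hd s (by simpa using hs)).add (hq s)).hasDerivWithinAt) fun s hs => ?_
    rw [interior_Icc] at hs
    have h1 : ∑ l ∈ Finset.range (k + 1), (m (l + 1) - m l) * -r l *
        spR k m (fun l => r l + s * -r l) l ≥ -(Q * (1 - s)) := by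
      rw [hQ, Finset.sum_mul, ← Finset.sum_neg_distrib]
      refine Finset.sum_le_sum fun l hl => ?_
      have hl' : l ≤ k := Nat.lt_succ_iff.1 (Finset.mem_range.1 hl)
      have hp := sp6_path (hS s ⟨hs.1.le, hs.2⟩)
      have h2 := spR_le hm hp hl'
      have h3 : 0 ≤ r l := by
        clear * - hr hl'
        induction l with
        | zero => exact hr.1.le
        | succ l ih => exact (ih (by omega)).trans (hr.2 l (by omega)).le
      have h4 := mul_le_mul_of_nonneg_left h2 (mul_nonneg (sub_nonneg.2 (hm.2.2 l hl').le) h3)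
      linarith
    linarith
  have h := hanti (by simp : (0 : ℝ) ∈ Set.Icc 0 1) (by simp : (1 : ℝ) ∈ Set.Icc 0 1) zero_le_one
  simp only [e1, spin_zero hm, zero_mul, add_zero] at h
  rw [← hQ]
  linarith

end Vale.Agent.N166X
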