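import Vale.Agent.N166X.Cmp

/-! P166, phase transition: strict convexity below the edge. -/

namespace Vale.Agent.N166X

open MeasureTheory Filter Topology Set Vale.Agent.P166W95 Vale.Agent.P166

variable {μ : Measure ℝ} [IsProbabilityMeasure μ] (hμ : IsCompact μ.support)

include hμ

theorem K_strict (hab : sInf μ.support < sSup μ.support) {B : ℝ} (hB : 0 < B)
    (hK : ∀ y, 0 < y → y < B → sSup μ.support < stieltjesInv μ y) :
    StrictConvexOn ℝ (Ioi B⁻¹) fun w => stieltjesInv μ w⁻¹ := by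
  have hB' : 0 < B⁻¹ := inv_pos.2 hB
  have hy : ∀ w ∈ Ioi B⁻¹, 0 < w ∧ sSup μ.support < stieltjesInv μ w⁻¹ ∧
      ∫ t, (stieltjesInv μ w⁻¹ - t)⁻¹ ∂μ = w⁻¹ := fun w hw => by
    have h1 : 0 < w := hB'.trans hw
    have h2 := hK w⁻¹ (inv_pos.2 h1) (inv_lt_of_inv_lt₀ hB hw)
    exact ⟨h1, h2, G_K hμ (inv_pos.2 h1) h2⟩
  refine ⟨convex_Ioi _, fun w1 h1 w2 h2 hne a b ha hb hs => ?_⟩
  obtain ⟨h1', c1, g1⟩ := hy w1 h1
  obtain ⟨h2', c2, g2⟩ := hy w2 h2
  obtain ⟨hw, -, g3⟩ := hy _ ((convex_Ioi B⁻¹) h1 h2 ha.le hb.le hs)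
  refine lt_of_le_of_ne ((K_convex hμ).2 h1' h2' ha.le hb.le hs) fun heq => ?_
  simp only [smul_eq_mul] at heq hw g3
  rw [heq] at g3
  generalize stieltjesInv μ w1⁻¹ = x1 at *
  generalize stieltjesInv μ w2⁻¹ = x2 at *
  have hx : sSup μ.support < a * x1 + b * x2 := (convex_Ioi (sSup μ.support)) c1 c2 ha.le hb.le hs
  have i1 := F.rt_int_inv hμ c1
  have i2 := F.rt_int_inv hμ c2
  have i3 := F.rt_int_inv hμ hx
  have a1 : Integrable (fun t => a * w1 ^ 2 * (x1 - t)⁻¹ + b * w2 ^ 2 * (x2 - t)⁻¹) μ :=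
    (i1.const_mul _).add (i2.const_mul _)
  have e : ∀ t, t ≤ sSup μ.support → a * w1 ^ 2 * (x1 - t)⁻¹ + b * w2 ^ 2 * (x2 - t)⁻¹ -
      (a * w1 + b * w2) ^ 2 * (a * x1 + b * x2 - t)⁻¹ = a * b * (w1 * (x2 - t) - w2 * (x1 - t)) ^ 2 /
        ((x1 - t) * (x2 - t) * (a * x1 + b * x2 - t)) := fun t ht => by
    obtain ⟨u1, hu1⟩ : ∃ u, u = x1 - t := ⟨_, rfl⟩
    obtain ⟨u2, hu2⟩ : ∃ u, u = x2 - t := ⟨_, rfl⟩
    have p1 : 0 < u1 := by linarith
    have p2 : 0 < u2 := by linarith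
    have e : a * x1 + b * x2 - t = a * u1 + b * u2 := by
      rw [hu1, hu2]
      linear_combination t * hs
    rw [e, ← hu1, ← hu2]
    field_simp
    ring
  have a2 : Integrable (fun t => a * w1 ^ 2 * (x1 - t)⁻¹ + b * w2 ^ 2 * (x2 - t)⁻¹ -
      (a * w1 + b * w2) ^ 2 * (a * x1 + b * x2 - t)⁻¹) μ := a1.sub (i3.const_mul _)
  have h4 : 0 < ∫ t, (a * w1 ^ 2 * (x1 - t)⁻¹ + b * w2 ^ 2 * (x2 - t)⁻¹ -
      (a * w1 + b * w2) ^ 2 * (a * x1 + b * x2 - t)⁻¹) ∂μ := by
    rw [integral_pos_iff_support_of_nonneg_ae _ a2]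
    · obtain ⟨t, ht, htb, hne'⟩ : ∃ t ∈ μ.support, t ≤ sSup μ.support ∧
          w1 * (x2 - t) - w2 * (x1 - t) ≠ 0 := by
        by_contra hcon
        push Not at hcon
        have k1 := hcon _ (hμ.sInf_mem F.rt2_ne) hab.le
        have k2 := hcon _ (hμ.sSup_mem F.rt2_ne) le_rfl
        have k3 : (w1 - w2) * (sSup μ.support - sInf μ.support) = 0 := by linarith
        rcases mul_eq_zero.1 k3 with k | k
        · exact hne (sub_eq_zero.1 k)
        · linarith
      have p1 : 0 < x1 - t := by linarith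
      have p2 : 0 < x2 - t := by linarith
      have p3 : 0 < a * x1 + b * x2 - t := by linarith
      refine (Measure.mem_support_iff_forall _).1 ht _ (ContinuousAt.eventually_ne ?_ ?_)
      · exact ((continuousAt_const.mul (ContinuousAt.inv₀ (by fun_prop) p1.ne')).add
          (continuousAt_const.mul (ContinuousAt.inv₀ (by fun_prop) p2.ne'))).sub
          (continuousAt_const.mul (ContinuousAt.inv₀ (by fun_prop) p3.ne'))
      · rw [e t htb]
        positivity
    · filter_upwards [F.rt2_ae_le hμ] with t ht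
      have p1 : 0 < x1 - t := by linarith
      have p2 : 0 < x2 - t := by linarith
      have p3 : 0 < a * x1 + b * x2 - t := by linarith
      rw [e t ht]
      positivity
  rw [integral_sub a1 (i3.const_mul _), integral_add (i1.const_mul _) (i2.const_mul _),
    integral_const_mul, integral_const_mul, integral_const_mul, g1, g2, g3] at h4
  have e1 : a * w1 ^ 2 * w1⁻¹ = a * w1 := by field_simp
  have e2 : b * w2 ^ 2 * w2⁻¹ = b * w2 := by field_simp
  have e3 : (a * w1 + b * w2) ^ 2 * (a * w1 + b * w2)⁻¹ = a * w1 + b * w2 := by field_simp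
  linarith

theorem mono_beta_lt (hab : sInf μ.support < sSup μ.support) {L u β β' : ℝ} (hL : 0 < L)
    (hu : L < u) (hu1 : u < 1) (hβ' : 0 < β') (h : β' < β)
    (hK : ∀ y, 0 < y → y < β → sSup μ.support < stieltjesInv μ y) :
    β' * (rTransform μ (β' * u) - rTransform μ (β' * L)) <
      β * (rTransform μ (β * u) - rTransform μ (β * L)) := by
  have hβ : 0 < β := hβ'.trans h
  have hu0 : 0 < u := hL.trans hu
  have hc := K_strict hμ hab hβ hK
  have o1 : (β * u)⁻¹ < (β * L)⁻¹ := inv_strictAnti₀ (by positivity) (by nlinarith)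
  have o2 : (β' * u)⁻¹ < (β' * L)⁻¹ := inv_strictAnti₀ (by positivity) (by nlinarith)
  have o3 : (β * L)⁻¹ < (β' * L)⁻¹ := inv_strictAnti₀ (by positivity) (by nlinarith)
  have o4 : (β * u)⁻¹ < (β' * u)⁻¹ := inv_strictAnti₀ (by positivity) (by nlinarith)
  have m1 : β⁻¹ < (β * u)⁻¹ := inv_strictAnti₀ (by positivity) (by nlinarith)
  have m2 : β⁻¹ < (β * L)⁻¹ := m1.trans o1
  have m3 : β⁻¹ < (β' * u)⁻¹ := m1.trans o4
  have m4 : β⁻¹ < (β' * L)⁻¹ := m2.trans o3
  have s1 := hc.secant_strict_mono m1 m2 m4 o1.ne' (o1.trans o3).ne' o3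
  have s2 := hc.secant_strict_mono m4 m1 m3 (o1.trans o3).ne o2.ne o4
  simp only [inv_inv] at s1 s2
  rw [← neg_div_neg_eq, neg_sub, neg_sub] at s2
  have s3 := s1.trans s2
  have hd : 0 < L⁻¹ - u⁻¹ := sub_pos.2 (inv_strictAnti₀ hL hu)
  have e1 : (β * L)⁻¹ - (β * u)⁻¹ = (L⁻¹ - u⁻¹) / β := by field_simp
  have e2 : (β' * u)⁻¹ - (β' * L)⁻¹ = -(L⁻¹ - u⁻¹) / β' := by field_simp; ring
  rw [e1, e2, div_div_eq_mul_div, div_div_eq_mul_div, div_neg, ← neg_div,
    div_lt_div_iff_of_pos_right hd] at s3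
  have e3 : β * (1 / (β * u)) = β' * (1 / (β' * u)) := by field_simp
  have e4 : β * (1 / (β * L)) = β' * (1 / (β' * L)) := by field_simp
  unfold rTransform
  linarith

/-- A convex R-transform is Lipschitz with the constant `1 / β²`. -/
theorem lip_of_convex {S : Set ℝ} (hc : ConvexOn ℝ S (rTransform μ)) {β : ℝ}
    (hS : ∀ y, 0 < y → y < β → y ∈ S) {y y' : ℝ} (hy : 0 < y) (hyy : y ≤ y') (hy' : y' < β) :
    rTransform μ y' - rTransform μ y ≤ 1 / β ^ 2 * (y' - y) := by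
  rcases hyy.eq_or_lt with rfl | hlt
  · simp
  have hβ : 0 < β := by linarith
  have key : ∀ z ∈ Ioo y' β, (rTransform μ y' - rTransform μ y) / (y' - y) ≤ 1 / z ^ 2 := by
    intro z hz
    obtain ⟨z', h1, h2⟩ := exists_between hz.2
    have z0 : 0 < z := by linarith [hz.1]
    have my := hS y hy (by linarith)
    have my' := hS y' (by linarith) hy'
    have mz := hS z z0 hz.2
    have mz' := hS z' (by linarith) h2
    refine ((hc.slope_mono_adjacent my mz hlt hz.1).trans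
      (hc.slope_mono_adjacent my' mz' hz.1 h1)).trans ?_
    have h3 : stieltjesInv μ z' ≤ stieltjesInv μ z := F.stInv_anti hμ z0 h1.le
    rw [div_le_iff₀ (by linarith)]
    have z1 : 0 < z' := by linarith
    have e : 1 / z - 1 / z' = 1 / (z * z') * (z' - z) := by field_simp
    have h4 : 1 / (z * z') ≤ 1 / z ^ 2 := one_div_le_one_div_of_le (by positivity) (by nlinarith)
    have h5 := mul_le_mul_of_nonneg_right h4 (sub_pos.2 h1).le
    unfold rTransform
    linarith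
  rw [← div_le_iff₀ (by linarith)]
  have ht : Tendsto (fun z : ℝ => 1 / z ^ 2) (𝓝[<] β) (𝓝 (1 / β ^ 2)) :=
    (ContinuousAt.tendsto (by fun_prop (disch := positivity))).mono_left nhdsWithin_le_nhds
  exact ge_of_tendsto ht (mem_of_superset (Ioo_mem_nhdsLT hy') key)

end Vale.Agent.N166X
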