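import Vale.Agent.N166X.Mp

namespace Vale.Agent.N166X.Transition

open MeasureTheory Vale.Agent.N166X

/-- `Conv β Λ v` says that `P_N(β) → v`; `Spec Λ μ lam` that the spectra have the limit law `μ`,
that the largest eigenvalue tends to `lam` and that the spectra are bounded below;
`A μ b β = ½ ∫₀^β R`; `edge μ b = G(b+)`. -/
theorem transition :
    (∀ (μ : Measure ℝ) [IsProbabilityMeasure μ] (a b : ℝ), IsLeast μ.support a →
      IsGreatest μ.support b → ∃ βc : ENNReal,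
      -- (1) the closed form holds exactly up to `βc`; the defect is nondecreasing
      (∀ Λ, Spec Λ μ b → ∀ β, 0 < β → (Conv β Λ (A μ b β) ↔ ENNReal.ofReal β ≤ βc) ∧
        ∀ β' v v', β ≤ β' → Conv β Λ v → Conv β' Λ v' →
          0 ≤ A μ b β - v ∧ A μ b β - v ≤ A μ b β' - v') ∧
      -- (2) bounds on `βc`
      (βc ≤ edge μ b ∧ (βc = ⊤ ↔ a = b) ∧ ∀ β, 0 < β →
        ((β * (b - a) ≤ 1 / 2 ∨ ∀ y y', 0 < y → y ≤ y' → y' < β →
          R μ b y' - R μ b y ≤ (y' - y) / β ^ 2) → ENNReal.ofReal β ≤ βc) ∧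
        (ENNReal.ofReal β ≤ βc → β * R μ b β / 2 ≤ Real.log 2 + A μ b β)) ∧
      -- (3) the value of `βc` for a convex R-transform
      (ConvexOn ℝ {y | 0 < y ∧ ENNReal.ofReal y < edge μ b} (R μ b) → βc = edge μ b) ∧
      -- (4) the threshold for an outlier eigenvalue below `βc`
      ∀ β, 0 < β → ENNReal.ofReal β < βc → ∀ lam Λ, Spec Λ μ lam →
        (Conv β Λ (A μ b β) ↔ lam ≤ Ginv μ b β)) ∧
    -- (5) the Marchenko-Pastur law
    ∀ c : ℝ, 0 < c → IsProbabilityMeasure (mp c) ∧ IsGreatest (mp c).support ((1 + c) ^ 2) ∧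
      ∀ Λ, Spec Λ (mp c) ((1 + c) ^ 2) → ∀ β, 0 < β → β < 1 →
        (Conv β Λ (-(c ^ 2 / 2) * Real.log (1 - β)) ↔ β ≤ 1 / (1 + c)) := by
  refine ⟨fun μ _ a b ha hb => ?_, fun c hc => ⟨mp_prob hc, mp_top hc, fun Λ hΛ β h0 h1 => ?_⟩⟩
  · have hμ := supp_compact ha hb
    obtain rfl := ha.csInf_eq
    obtain rfl := hb.csSup_eq
    have hA : ∀ β, A μ (sSup μ.support) β = An β (P166W95.rTransform μ) := fun β =>
      (An_eq β _).symm
    simp only [hA]
    refine ⟨crit μ, fun Λ hΛ β hβ => ⟨?_, fun β' v v' h h1 h2 => ?_⟩, ⟨crit_le_edge hμ,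
      crit_top hμ, fun β hβ => ⟨fun h => h.elim (crit_of_small hμ hβ) (crit_of_lip hμ hβ),
        fun h => ent_crit hμ hβ ((le_crit hμ hβ).1 h)⟩⟩, crit_of_convex hμ,
      fun β hβ h lam Λ hΛ => (conv_spiked hμ hβ hΛ _).trans (outlier hμ hβ h lam).2⟩
    · rw [conv_iff hμ hβ hΛ, le_crit hμ hβ]
      exact ⟨fun h => h.ge, le_antisymm (val_le_an (N166.bdd_r hμ hβ))⟩
    · rw [← (conv_iff hμ hβ hΛ v).1 h1, ← (conv_iff hμ (hβ.trans_le h) hΛ v').1 h2]
      exact ⟨sub_nonneg.2 (val_le_an (N166.bdd_r hμ hβ)), gap_mono hμ hβ h⟩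
  · have := mp_prob hc
    rw [← (mp_top hc).csSup_eq] at hΛ
    exact (conv_iff (mp_compact hc) h0 hΛ _).trans (mp_iff hc h0 h1)

end Vale.Agent.N166X.Transition
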