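import Vale.Agent.N166X.Spin

/-! P166, phase transition: a strict upper bound for the spin part with one step of replica
symmetry breaking. -/

namespace Vale.Agent.N166X

open MeasureTheory ProbabilityTheory Filter Topology Set Vale.Agent.P157.Par

theorem quad_dens {c : ℝ} (hc : 0 < c) (t z : ℝ) :
    gaussianPDFReal 0 1 z * Real.exp (t * z - (c - 1) * z ^ 2 / 2) =
      ((√(2 * Real.pi))⁻¹ * Real.exp (t ^ 2 / (2 * c))) * Real.exp (-(c / 2) * (z - t / c) ^ 2) := by
  rw [gaussianPDFReal]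
  simp only [NNReal.coe_one, mul_one, sub_zero]
  rw [mul_assoc, mul_assoc, ← Real.exp_add, ← Real.exp_add]
  congr 2
  field_simp
  ring

theorem int_quad {c : ℝ} (hc : 0 < c) (t : ℝ) :
    Integrable (fun z => Real.exp (t * z - (c - 1) * z ^ 2 / 2)) (gaussianReal 0 1) ∧
      ∫ z, Real.exp (t * z - (c - 1) * z ^ 2 / 2) ∂(gaussianReal 0 1) =
        (√c)⁻¹ * Real.exp (t ^ 2 / (2 * c)) := by
  constructor
  · rw [P150.integrable_gaussianReal_iff]
    simp_rw [quad_dens hc]
    exact ((integrable_exp_neg_mul_sq (half_pos hc)).comp_sub_right (t / c)).const_mul _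
  · rw [integral_gaussianReal_eq_integral_smul one_ne_zero]
    simp_rw [smul_eq_mul, quad_dens hc]
    rw [integral_const_mul, integral_sub_right_eq_self
      (fun z : ℝ => Real.exp (-(c / 2) * z ^ 2)) (t / c), integral_gaussian]
    have h3 : Real.pi / (c / 2) = (2 * Real.pi) / c := by field_simp
    rw [h3, Real.sqrt_div (by positivity)]
    have h4 : √(2 * Real.pi) ≠ 0 := by positivity
    field_simp

/-- Strict Cauchy-Schwarz inequality. -/
theorem half_lt {a : ℝ} (ha : 0 < a) (ha1 : a < 1) (s : ℝ) :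
    (∫ z, Real.exp (1 / 2 * Real.log (Real.cosh (s * z))) ∂(gaussianReal 0 1)) ^ 2 <
      (√(1 + a))⁻¹ * Real.exp (s ^ 2 / (2 * (1 + a))) * (√(1 - a))⁻¹ := by
  have hO : (gaussianReal 0 1).IsOpenPosMeasure :=
    (gaussianReal_absolutelyContinuous' 0 one_ne_zero).isOpenPosMeasure
  obtain ⟨f, hf⟩ : ∃ f : ℝ → ℝ, f = fun z =>
    Real.exp (1 / 2 * Real.log (Real.cosh (s * z)) - a * z ^ 2 / 4) := ⟨_, rfl⟩
  obtain ⟨g, hg⟩ : ∃ g : ℝ → ℝ, g = fun z => Real.exp (a * z ^ 2 / 4) := ⟨_, rfl⟩
  have hlc : Continuous fun z => Real.log (Real.cosh (s * z)) :=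
    (Real.continuous_cosh.comp (by fun_prop)).log fun z => (Real.cosh_pos _).ne'
  have cf : Continuous f := by rw [hf]; fun_prop
  have cg : Continuous g := by rw [hg]; fun_prop
  have e1 : ∀ z, f z * g z = Real.exp (1 / 2 * Real.log (Real.cosh (s * z))) := fun z => by
    simp only [hf, hg]
    rw [← Real.exp_add]
    congr 1
    ring
  have e2 : ∀ z, f z ^ 2 = 1 / 2 * Real.exp (s * z - (1 + a - 1) * z ^ 2 / 2) +
      1 / 2 * Real.exp (-s * z - (1 + a - 1) * z ^ 2 / 2) := fun z => by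
    have h1 : f z ^ 2 = Real.exp (Real.log (Real.cosh (s * z))) * Real.exp (-(a * z ^ 2 / 2)) := by
      simp only [hf]
      rw [← Real.exp_nat_mul, ← Real.exp_add]
      congr 1
      push_cast
      ring
    rw [h1, Real.exp_log (Real.cosh_pos _), Real.cosh_eq, sub_eq_add_neg (s * z),
      sub_eq_add_neg (-s * z), Real.exp_add, Real.exp_add, add_sub_cancel_left, neg_mul]
    ring
  have e3 : ∀ z, g z ^ 2 = Real.exp (0 * z - (1 - a - 1) * z ^ 2 / 2) := fun z => by
    simp only [hg]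
    rw [← Real.exp_nat_mul]
    congr 1
    push_cast
    ring
  obtain ⟨p1, p2⟩ := int_quad (c := 1 + a) (by linarith) s
  obtain ⟨n1, n2⟩ := int_quad (c := 1 + a) (by linarith) (-s)
  obtain ⟨z1, z2⟩ := int_quad (c := 1 - a) (by linarith) 0
  have iff2 : Integrable (fun z => f z ^ 2) (gaussianReal 0 1) := by
    simp only [e2]
    exact (p1.const_mul _).add (n1.const_mul _)
  have ig2 : Integrable (fun z => g z ^ 2) (gaussianReal 0 1) := by
    simp only [e3]
    exact z1
  have ifg : Integrable (fun z => f z * g z) (gaussianReal 0 1) := by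
    simp only [e1]
    simpa only [zero_add] using lip1_log_cosh.integrable_exp (1 / 2) 0 s
  have vF : ∫ z, f z ^ 2 ∂(gaussianReal 0 1) = (√(1 + a))⁻¹ * Real.exp (s ^ 2 / (2 * (1 + a))) := by
    simp only [e2]
    rw [integral_add (p1.const_mul _) (n1.const_mul _), integral_const_mul, integral_const_mul,
      p2, n2, neg_sq]
    ring
  have vG : ∫ z, g z ^ 2 ∂(gaussianReal 0 1) = (√(1 - a))⁻¹ := by
    simp only [e3]
    rw [z2]
    simp
  have hG : 0 < (√(1 - a))⁻¹ := inv_pos.2 (Real.sqrt_pos.2 (by linarith))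
  rw [← vF]
  simp only [← e1]
  generalize (√(1 - a))⁻¹ = G at *
  generalize hI : ∫ z, f z * g z ∂(gaussianReal 0 1) = I
  have e4 : ∀ z, (G * f z - I * g z) ^ 2 =
      G ^ 2 * f z ^ 2 + (-(2 * G * I) * (f z * g z) + I ^ 2 * g z ^ 2) := fun z => by ring
  have a1 : Integrable (fun z => -(2 * G * I) * (f z * g z) + I ^ 2 * g z ^ 2)
      (gaussianReal 0 1) := (ifg.const_mul _).add (ig2.const_mul _)
  obtain ⟨z, hz⟩ : ∃ z, (G * f z - I * g z) ^ 2 ≠ 0 := by
    by_contra hcon
    push Not at hcon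
    have h0 := hcon 0
    simp only [hf, hg, mul_zero, Real.cosh_zero, Real.log_one] at h0
    have h1 : G = I := by
      have := pow_eq_zero_iff (two_ne_zero) |>.1 h0
      norm_num at this
      linarith
    have h2 := pow_eq_zero_iff (two_ne_zero) |>.1 (hcon (|s| / a + 1))
    rw [← h1, ← mul_sub, mul_eq_zero, sub_eq_zero] at h2
    rcases h2 with h2 | h2
    · exact hG.ne' h2
    · simp only [hf, hg, Real.exp_eq_exp] at h2
      have h3 := P166.F.bdd_log_cosh (s * (|s| / a + 1))
      have h4 : 0 < |s| / a + 1 := by positivity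
      rw [abs_mul, abs_of_pos h4] at h3
      have h5 : a * (|s| / a + 1) = |s| + a := by field_simp
      have h6 : a * (|s| / a + 1) ^ 2 = (|s| + a) * (|s| / a + 1) := by rw [← h5]; ring
      nlinarith
  have hpos := integral_pos_of_integrable_nonneg_nonzero (μ := gaussianReal 0 1)
    (f := fun z => (G * f z - I * g z) ^ 2) (by fun_prop)
    (by simp only [e4]; exact (iff2.const_mul _).add a1) (fun z => sq_nonneg _) hz
  simp only [e4] at hpos
  rw [integral_add (iff2.const_mul _) a1, integral_add (ifg.const_mul _) (ig2.const_mul _),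
    integral_const_mul, integral_const_mul, integral_const_mul, hI, vG] at hpos
  nlinarith

/-- The exponents `0, 1/2, 1`. -/
noncomputable def mh : ℕ → ℝ := fun l => l / 2

theorem mh_exp : Exponents 1 mh :=
  ⟨by simp [mh], by norm_num [mh], fun l _ => by simp only [mh]; push_cast; linarith⟩

theorem spin_one {r : ℕ → ℝ} (h0 : r 0 = 0) : spinPart 1 mh r =
    2 * Real.log (∫ z, Real.exp (1 / 2 * Real.log (Real.cosh (√(r 1) * z))) ∂(gaussianReal 0 1)) -
      r 1 / 2 := by
  simp [spinPart, cascade, gstep, h0, mh]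

theorem one_lt {q : ℝ} (hq : 0 < q) (hq1 : q < 1) {r : ℕ → ℝ} (h0 : r 0 = 0) (h1 : 0 ≤ r 1) :
    spinPart 1 mh r + r 1 * q / 4 < Real.log (1 - q / 2) - Real.log (1 - q) / 2 := by
  have hL : 0 < 1 - q / 2 := by linarith
  have hq' : 0 < 1 - q := by linarith
  have h2 := half_lt (a := q / (2 - q)) (div_pos hq (by linarith))
    ((div_lt_one (by linarith)).2 (by linarith)) (√(r 1))
  have h3 := lip1_log_cosh.int_exp_pos (1 / 2) 0 (√(r 1))
  simp only [zero_add] at h3
  have h4 := Real.log_lt_log (by positivity) h2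
  have e1 : 1 + q / (2 - q) = (1 - q / 2)⁻¹ := by
    have : 2 - q ≠ 0 := by linarith
    field_simp
    ring
  have e2 : 1 - q / (2 - q) = (1 - q) / (1 - q / 2) := by
    have : 2 - q ≠ 0 := by linarith
    field_simp
    ring
  rw [e1, e2, Real.log_pow, Real.log_mul (by positivity) (by positivity),
    Real.log_mul (by positivity) (by positivity), Real.log_inv, Real.log_inv, Real.log_exp,
    Real.log_sqrt (by positivity), Real.log_sqrt (by positivity), Real.log_inv,
    Real.log_div hq'.ne' hL.ne', Real.sq_sqrt h1] at h4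
  have e3 : r 1 / (2 * (1 - q / 2)⁻¹) = r 1 / 2 - r 1 * q / 4 := by
    field_simp
    ring
  rw [spin_one h0]
  push_cast at h4
  linarith

/-- The gap is uniform. -/
theorem one_gap {q : ℝ} (hq : 0 < q) (hq1 : q < 1) : ∃ γ : ℝ, 0 < γ ∧ ∀ r, P157.Par.Path 1 r →
    spinPart 1 mh r + r 1 * q / 4 ≤ Real.log (1 - q / 2) - Real.log (1 - q) / 2 - γ := by
  obtain ⟨K, hK⟩ : ∃ K, K = Real.log (1 - q / 2) - Real.log (1 - q) / 2 := ⟨_, rfl⟩
  obtain ⟨T, hT⟩ : ∃ T, T = 4 * (2 * Real.log 2 + 1 + |K|) / (1 - q) := ⟨_, rfl⟩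
  have hq' : 0 < 1 - q := by linarith
  have hl : 0 < Real.log 2 := Real.log_pos one_lt_two
  have hT0 : 0 < T := by rw [hT]; positivity
  obtain ⟨hc, -⟩ := P166.F.spin_deriv0 (k := 1) (r := fun _ => 0) (η := fun l => l) mh_exp hT0
    ⟨rfl, by simp⟩ fun s hs l _ => by push_cast; nlinarith [hs.1]
  obtain ⟨t, ht, hmax⟩ := isCompact_Icc.exists_isMaxOn (nonempty_Icc.2 hT0.le)
    (hc.add (g := fun s => s * q / 4) (by fun_prop))
  have h1 := one_lt hq hq1 (r := fun l => 0 + t * (l : ℝ)) (by simp) (by simpa using ht.1)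
  rw [← hK] at h1 ⊢
  simp only [Nat.cast_one, mul_one, zero_add] at h1
  refine ⟨min 1 (K - (spinPart 1 mh (fun l => t * (l : ℝ)) + t * q / 4)),
    lt_min one_pos (by linarith), fun r hr => ?_⟩
  have hr1 : 0 ≤ r 1 := hr.1.trans (hr.2 0 zero_lt_one)
  have hp : P157.Par.Path 1 (fun l => r 1 * (l : ℝ)) := ⟨by simp, fun l hl => by push_cast; nlinarith⟩
  have h2 := P166.F.spin_tangent_cl mh_exp hp hr
  rw [Finset.sum_range_succ, Finset.sum_range_one, P166.F.spR_zero mh_exp (by simp)] at h2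
  simp only [Nat.cast_one, mul_one, sub_self, mul_zero, zero_mul, add_zero, sub_zero] at h2
  rcases le_total (r 1) T with h | h
  · have h3 := hmax (show r 1 ∈ Set.Icc 0 T from ⟨hr1, h⟩)
    simp only [Pi.add_apply, zero_add, mem_ofPred_eq] at h3
    linarith [min_le_right 1 (K - (spinPart 1 mh (fun l => t * (l : ℝ)) + t * q / 4))]
  · have h3 := P166.F.spinPart_le mh_exp hp
    simp only [Finset.sum_range_succ, Finset.sum_range_zero, mh] at h3
    norm_num at h3
    have h4 : T * (1 - q) = 4 * (2 * Real.log 2 + 1 + |K|) := by rw [hT]; field_simp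
    have h5 := mul_le_mul_of_nonneg_right h hq'.le
    have h6 : Real.log 2 / (1 / 2) = 2 * Real.log 2 := by ring
    linarith [min_le_left 1 (K - (spinPart 1 mh (fun l => t * (l : ℝ)) + t * q / 4)),
      neg_abs_le K]

end Vale.Agent.N166X
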